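import Vale.Agent.P210U.Sta

/-!
# P210U: locality, gluing and monotonicity in the metric (helper22)
-/

open Filter Topology Set Metric
open scoped ContDiff
open Vale.Agent.P366M Vale.Agent.P210G

noncomputable section

namespace Vale.Agent.P210U

/-- gluing of modifications with disjoint, locally finite, closed supports -/
theorem glue {X α κ : Type*} [TopologicalSpace X] {N : κ → Set X} (hc : ∀ k, IsClosed (N k))
    (lf : LocallyFinite N) (dj : ∀ k k' x, x ∈ N k → x ∈ N k' → k = k') (d : X → α)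
    (d' : κ → X → α) (e : ∀ k, ∀ x ∉ N k, d' k x = d x) :
    ∃ f : X → α, ∀ x, (∀ k, x ∈ N k → f =ᶠ[𝓝 x] d' k) ∧ ((∀ k, x ∉ N k) → f =ᶠ[𝓝 x] d) := by
  classical
  refine ⟨fun x => if h : ∃ k, x ∈ N k then d' h.choose x else d x, fun x => ⟨fun k hk => ?_,
    fun h => ?_⟩⟩
  · have c : IsClosed (⋃ j : {j // j ≠ k}, N j) :=
      (lf.comp_injective Subtype.val_injective).isClosed_iUnion fun j => hc j
    have m : x ∉ ⋃ j : {j // j ≠ k}, N j := by
      simp only [mem_iUnion, not_exists]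
      exact fun j hj => j.2 (dj _ _ x hj hk)
    filter_upwards [c.isOpen_compl.mem_nhds m] with y hy
    by_cases h : ∃ k, y ∈ N k
    · have : h.choose = k := by
        by_contra hne
        exact hy (mem_iUnion.2 ⟨⟨_, hne⟩, h.choose_spec⟩)
      simp only [dif_pos h, this]
    · simp only [dif_neg h]
      exact (e k y fun hk => h ⟨k, hk⟩).symm
  · have c : IsClosed (⋃ j, N j) := lf.isClosed_iUnion hc
    have m : x ∉ ⋃ j, N j := by simpa using h
    filter_upwards [c.isOpen_compl.mem_nhds m] with y hy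
    have : ¬∃ k, y ∈ N k := fun ⟨k, hk⟩ => hy (mem_iUnion.2 ⟨k, hk⟩)
    simp only [dif_neg this]

variable {n : ℕ} {M : Type} [Mf0 n M] {g g' g'' : Fld n M} {v v' : Fin n → M → ℝ} {x : M}

theorem met_loc (h : ∀ x, ∃ g', Met g' ∧ g =ᶠ[𝓝 x] g') : Met g := by
  refine ⟨fun e he i j => contDiff_iff_contDiffAt.2 fun y => ?_, fun x i j => ?_, fun x => ?_⟩
  · obtain ⟨g', a, b⟩ := h (e.symm y)
    exact (a.sm e he i j).contDiffAt.congr_of_eventuallyEq
      ((rep_congr he b).mono fun z hz => by simp only [hz])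
  · obtain ⟨g', a, b⟩ := h x
    rw [b.self_of_nhds]; exact a.sy x i j
  · obtain ⟨g', a, b⟩ := h x
    unfold mat; rw [b.self_of_nhds]; exact a.pos x

theorem cc_loc (h : ∀ x, ∃ v', CC ∞ v' ∧ ∀ i, v i =ᶠ[𝓝 x] v' i) : CC ∞ v := by
  refine fun e he i => contDiff_iff_contDiffAt.2 fun y => ?_
  obtain ⟨v', a, b⟩ := h (e.symm y)
  exact (a e he i).contDiffAt.congr_of_eventuallyEq
    (((ev_iff he).1 (eventually_all.2 b)).mono fun z hz => by unfold repC; simp only [hz])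

theorem sm_loc {u : M → ℝ} (h : ∀ x, ∃ u', Smooth u' ∧ u =ᶠ[𝓝 x] u') : Smooth u :=
  cd_of_cAt le_rfl fun x => by
    obtain ⟨u', a, b⟩ := h x
    exact (CD.contDiffAt a).congr_of_eventuallyEq b

theorem Rv_of_ev (e : g =ᶠ[𝓝 x] g') (e' : ∀ i, v i =ᶠ[𝓝 x] v' i) : Rv g v x = Rv g' v' x := by
  have h : ∀ i, sh g v i =ᶠ[𝓝 x] sh g' v' i := fun i => by
    filter_upwards [e, eventually_all.2 e'] with y a b
    unfold sh
    simp only [up_of_eq a, b]
  unfold Rv iv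
  rw [scal_of_ev e, dv_of_ev e h]
  simp only [up_of_eq e.self_of_nhds, fun i => (e' i).self_of_nhds]

theorem gn_of_ev {u u' : M → ℝ} (e : g =ᶠ[𝓝 x] g') (e' : u =ᶠ[𝓝 x] u') :
    gn g u x = gn g' u' x := by rw [gn_of_eq e.self_of_nhds, gn_congr e']

theorem Up.rfl' (g : Fld n M) : Up g g := fun _ _ => le_rfl

theorem Up.trans (h : Up g g') (h' : Up g' g'') : Up g g'' := fun x ξ => (h x ξ).trans (h' x ξ)

theorem inv_anti {A B : Matrix (Fin n) (Fin n) ℝ} (hA : A.PosDef) (hB : B.PosDef)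
    (h : ∀ ξ : Fin n → ℝ, ∑ i, ∑ j, A i j * ξ i * ξ j ≤ ∑ i, ∑ j, B i j * ξ i * ξ j)
    (a : Fin n → ℝ) : ∑ i, ∑ j, B⁻¹ i j * a i * a j ≤ ∑ i, ∑ j, A⁻¹ i j * a i * a j := by
  have q : ∀ (C : Matrix (Fin n) (Fin n) ℝ) (ξ : Fin n → ℝ),
      ∑ i, ∑ j, C i j * ξ i * ξ j = ξ ⬝ᵥ C.mulVec ξ := fun C ξ => by
    simp only [dotProduct, Matrix.mulVec, Finset.mul_sum]
    exact Finset.sum_congr rfl fun _ _ => Finset.sum_congr rfl fun _ _ => by ring
  simp only [q] at h ⊢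
  have uA : IsUnit A.det := (Matrix.isUnit_iff_isUnit_det A).1 hA.isUnit
  have uB : IsUnit B.det := (Matrix.isUnit_iff_isUnit_det B).1 hB.isUnit
  set ξ := B⁻¹.mulVec a with hξ
  set ζ := A⁻¹.mulVec a with hζ
  have e1 : B.mulVec ξ = a := by
    rw [hξ, Matrix.mulVec_mulVec, Matrix.mul_nonsing_inv _ uB, Matrix.one_mulVec]
  have e2 : A.mulVec ζ = a := by
    rw [hζ, Matrix.mulVec_mulVec, Matrix.mul_nonsing_inv _ uA, Matrix.one_mulVec]
  have sA : A.transpose = A := by simpa using hA.isHermitian.eq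
  have p : 0 ≤ (ξ - ζ) ⬝ᵥ A.mulVec (ξ - ζ) := by
    simpa using hA.posSemidef.dotProduct_mulVec_nonneg (ξ - ζ)
  have s : ζ ⬝ᵥ A.mulVec ξ = ξ ⬝ᵥ a := by
    rw [Matrix.dotProduct_mulVec, ← Matrix.mulVec_transpose, sA, e2, dotProduct_comm]
  rw [Matrix.mulVec_sub, sub_dotProduct, dotProduct_sub, dotProduct_sub, e2, s] at p
  have h1 := h ξ
  rw [e1] at h1
  rw [dotProduct_comm a ξ, dotProduct_comm a ζ]
  linarith

theorem Up.gn_le (h : Up g g') (hg : Met g) (hg' : Met g') (u : M → ℝ) (x : M) :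
    gn g' u x ≤ gn g u x :=
  Real.sqrt_le_sqrt (inv_anti (hg.pos x) (hg'.pos x) (h x) fun i => pd i u x)

theorem Lp.up (h : Lp g) (hg : Met g) (hg' : Met g') (u : Up g g') : Lp g' := fun p δ hδ => by
  obtain ⟨ρ, a, b, c⟩ := h p δ hδ
  exact ⟨ρ, a, b, fun x => (u.gn_le hg hg' ρ x).trans (c x)⟩

end Vale.Agent.P210U
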