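import Vale.Agent.P210.R2.H53.Defs
import Vale.Agent.P210.TP.Prod2_646

/-!
# P210: the last (combinatorial) step: bands with small multiplicity give the width bound (helper22)

`s i` are continuous functions; the plateaus `{1 ≤ s i}` cover the space, the sets `{0 < s i}` have
diameter at most `D`, and every point lies in at most `d` of the zones `{0 < s i < 1}`.
Then `UW_d ≤ D`.  The barycentric coordinates are `t i * ∏_{j < i} (1 - t j)`.
-/

open Set Finset

namespace Vale.Agent.P210U

open Vale.Agent.P210

theorem urysohn_of_bary {X : Type} [MetricSpace X] {d : ℕ} {C : ℝ} {V : Type} {lam : V → X → ℝ}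
    (hB : TP.Bary X V d lam) (hd : ∀ x y, (∀ v, lam v x = lam v y) → dist x y ≤ C) :
    R2.H53.UrysohnWidthLE X d C := by
  obtain ⟨f, hf, hfl⟩ := TP.prod2 X V d lam hB
  refine ⟨V, skel V d, f, fun s hs => hs.2, hf, fun x y hxy => hd x y fun v => ?_⟩
  rw [← hfl x v, ← hfl y v, hxy]

theorem sum_tele (t : ℕ → ℝ) (n : ℕ) :
    ∑ i ∈ range n, t i * ∏ j ∈ range i, (1 - t j) = 1 - ∏ j ∈ range n, (1 - t j) := by
  induction n with
  | zero => simp
  | succ n ih =>
    rw [Finset.sum_range_succ, ih, Finset.prod_range_succ]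
    ring

/-- bands indexed by the natural numbers -/
theorem width_of_bands_nat {X : Type} [MetricSpace X] {d : ℕ} {D : ℝ} (s : ℕ → X → ℝ)
    (hc : ∀ i, Continuous (s i)) (hcov : ∀ x, ∃ i, 1 ≤ s i x)
    (hdiam : ∀ i x y, 0 < s i x → 0 < s i y → dist x y ≤ D)
    (hmult : ∀ (x : X) (T : Finset ℕ), (∀ i ∈ T, 0 < s i x ∧ s i x < 1) → T.card ≤ d) :
    R2.H53.UrysohnWidthLE X d D := by
  classical
  let t : ℕ → X → ℝ := fun i x => max 0 (min 1 (2 * s i x))
  have tc : ∀ i, Continuous (t i) := fun i =>
    continuous_const.max (continuous_const.min (continuous_const.mul (hc i)))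
  have t0 : ∀ i x, 0 ≤ t i x := fun i x => le_max_left _ _
  have t1 : ∀ i x, t i x ≤ 1 := fun i x => max_le zero_le_one (min_le_left _ _)
  have tpos : ∀ i x, t i x ≠ 0 → 0 < s i x := by
    intro i x h
    by_contra h1
    apply h
    have : min 1 (2 * s i x) ≤ 0 := (min_le_right _ _).trans (by linarith)
    exact max_eq_left this
  have tone : ∀ i x, 1 / 2 ≤ s i x → t i x = 1 := by
    intro i x h
    have : min 1 (2 * s i x) = 1 := min_eq_left (by linarith)
    show max 0 (min 1 (2 * s i x)) = 1
    rw [this]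
    exact max_eq_right zero_le_one
  let lam : ℕ → X → ℝ := fun i x => t i x * ∏ j ∈ range i, (1 - t j x)
  have hz : ∀ i j x, j < i → t j x = 1 → lam i x = 0 := by
    intro i j x hj h
    show t i x * ∏ j ∈ range i, (1 - t j x) = 0
    rw [Finset.prod_eq_zero (Finset.mem_range.2 hj) (by rw [h, sub_self]), mul_zero]
  have hB : TP.Bary X ℕ d lam := by
    refine ⟨fun i => (tc i).mul (continuous_finsetProd _ fun j _ => continuous_const.sub (tc j)),
      fun i x => mul_nonneg (t0 i x) (Finset.prod_nonneg fun j _ => sub_nonneg.2 (t1 j x)),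
      fun x => ?_, fun x => ?_, fun x => ?_⟩
    · obtain ⟨i, hi⟩ := hcov x
      refine ⟨{y | 1 / 2 < s i y}, (isOpen_lt continuous_const (hc i)).mem_nhds
        (show 1 / 2 < s i x by linarith), (Set.finite_Iic i).subset ?_⟩
      rintro k ⟨y, h1, h2⟩
      by_contra h3
      exact h1 (hz k i y (not_le.1 h3) (tone i y (le_of_lt h2)))
    · obtain ⟨i, hi⟩ := hcov x
      have h1 : t i x = 1 := tone i x (by linarith)
      rw [finsum_eq_sum_of_support_subset (s := range (i + 1))]
      · rw [sum_tele (fun j => t j x), Finset.prod_range_succ, h1, sub_self, mul_zero, sub_zero]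
      · intro k hk
        by_contra h3
        rw [Finset.coe_range, Set.mem_Iio, not_lt] at h3
        exact hk (hz k i x h3 h1)
    · obtain ⟨i, hi⟩ := hcov x
      have h1 : t i x = 1 := tone i x (by linarith)
      have hfin : {v | lam v x ≠ 0}.Finite := by
        refine (Set.finite_Iic i).subset fun k hk => ?_
        by_contra h3
        exact hk (hz k i x (not_le.1 h3) h1)
      rw [Set.ncard_eq_toFinset_card _ hfin]
      rcases hfin.toFinset.eq_empty_or_nonempty with h | h
      · rw [h]
        simp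
      · have hm := Finset.max'_mem _ h
        rw [← Finset.card_erase_add_one hm]
        refine Nat.add_le_add_right (hmult x _ fun k hk => ?_) 1
        have h2 := Finset.mem_erase.1 hk
        have h3 : k < hfin.toFinset.max' h := lt_of_le_of_ne (Finset.le_max' _ _ h2.2) h2.1
        have h4 : lam k x ≠ 0 := hfin.mem_toFinset.1 h2.2
        have h5 : lam (hfin.toFinset.max' h) x ≠ 0 := hfin.mem_toFinset.1 hm
        refine ⟨tpos k x (left_ne_zero_of_mul h4), ?_⟩
        by_contra h6
        exact h5 (hz _ k x h3 (tone k x (by linarith)))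
  refine urysohn_of_bary hB fun x y hxy => ?_
  obtain ⟨i, hi⟩ : ∃ i, lam i x ≠ 0 := by
    by_contra h
    push Not at h
    have := hB.sum x
    simp [h] at this
  have hi' : lam i y ≠ 0 := by rw [← hxy i]; exact hi
  exact hdiam i x y (tpos i x (left_ne_zero_of_mul hi)) (tpos i y (left_ne_zero_of_mul hi'))

/-- bands indexed by a countable type -/
theorem width_of_bands {X ι : Type} [MetricSpace X] [Countable ι] {d : ℕ} {D : ℝ} (s : ι → X → ℝ)
    (hc : ∀ i, Continuous (s i)) (hcov : ∀ x, ∃ i, 1 ≤ s i x)
    (hdiam : ∀ i x y, 0 < s i x → 0 < s i y → dist x y ≤ D)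
    (hmult : ∀ (x : X) (T : Finset ι), (∀ i ∈ T, 0 < s i x ∧ s i x < 1) → T.card ≤ d) :
    R2.H53.UrysohnWidthLE X d D := by
  classical
  obtain ⟨e, he⟩ := Countable.exists_injective_nat ι
  let s' : ℕ → X → ℝ := Function.extend e s fun _ _ => 0
  have h1 : ∀ i, s' (e i) = s i := fun i => he.extend_apply _ _ i
  have h2 : ∀ k, (∃ i, e i = k) ∨ s' k = fun _ => 0 := by
    intro k
    by_cases h : ∃ i, e i = k
    · exact Or.inl h
    · exact Or.inr (Function.extend_apply' _ _ _ h)
  refine width_of_bands_nat s' (fun k => ?_) (fun x => ?_) (fun k x y hx hy => ?_) fun x T hT => ?_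
  · rcases h2 k with ⟨i, rfl⟩ | h
    · rw [h1]; exact hc i
    · rw [h]; exact continuous_const
  · obtain ⟨i, hi⟩ := hcov x
    exact ⟨e i, by rw [h1]; exact hi⟩
  · rcases h2 k with ⟨i, rfl⟩ | h
    · rw [h1] at hx hy
      exact hdiam i x y hx hy
    · rw [h] at hx
      exact absurd hx (lt_irrefl _)
  · have h3 : T ⊆ (T.preimage e he.injOn).image e := by
      intro k hk
      rcases h2 k with ⟨i, rfl⟩ | h
      · exact Finset.mem_image_of_mem e (Finset.mem_preimage.2 hk)
      · have := (hT k hk).1
        rw [h] at this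
        exact absurd this (lt_irrefl _)
    refine (Finset.card_le_card h3).trans (Finset.card_image_le.trans (hmult x _ fun i hi => ?_))
    have := hT _ (Finset.mem_preimage.1 hi)
    rwa [h1] at this

end Vale.Agent.P210U
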