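import Vale.Agent.P210G.Defs
import Vale.Agent.P210U.Bands

/-!
# P210U: the statements used by the top level (helper22)

`ST1 n` is the local output of stage 1, `BLE m` the end point form of the radial lemma,
`Out1` the global output of stage 1.
-/

open Filter Topology Set Metric
open scoped ContDiff
open Vale.Agent.P366M Vale.Agent.P210G

noncomputable section

namespace Vale.Agent.P210U

section

variable {n : ℕ} {M : Type} [Mf0 n M]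

/-- `g ≤ g'` -/
def Up (g g' : Fld n M) : Prop := ∀ (x : M) (ξ : Fin n → ℝ),
  ∑ i, ∑ j, g x i j * ξ i * ξ j ≤ ∑ i, ∑ j, g' x i j * ξ i * ξ j

/-- the distance functions of `M` have smooth approximations with bounded `g`-gradient -/
def Lp (g : Fld n M) : Prop := ∀ p : M, ∀ δ > (0 : ℝ), ∃ ρ : M → ℝ, Smooth ρ ∧
  (∀ x, |ρ x - dist x p| ≤ δ) ∧ ∀ x, gn g ρ x ≤ 2

/-- a metric, a drift and a scale -/
structure Ok (g : Fld n M) (v : Fin n → M → ℝ) (l : M → ℝ) : Prop where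
  met : Met g
  cc : CC ∞ v
  sml : Smooth l
  l0 : ∀ x, 0 < l x

/-- the square of the norm -/
def nsq {m : ℕ} (G : Fin m → M → ℝ) (x : M) : ℝ := ∑ i, G i x ^ 2

/-- the global output of stage 1 for the sets `U i` -/
def Out1 (M : Type) [Mf0 n M] {ι : Type} (U : ι → Set M) (a : ℝ) : Prop :=
  ∀ e : M → ℝ, (∀ K, IsCompact K → ∃ c > (0 : ℝ), ∀ x ∈ K, c ≤ e x) →
    ∃ (g : Fld n M) (v : Fin n → M → ℝ) (l : M → ℝ) (s : ι → M → ℝ), Ok g v l ∧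
      (∀ i, Smooth (s i)) ∧ (∀ x, ∃ i, 1 ≤ s i x) ∧ (∀ i x, 0 < s i x → x ∈ U i) ∧
      ∀ x, a ≤ l x ^ 2 * Rv g v x ∧ gn g l x ≤ e x ∧
        ∀ i, 0 < s i x → s i x < 1 → l x * gn g (s i) x ≤ e x

end

/-- **ST1**: stage 1 near a compact set `A` which is covered by the unit balls around `p i`;
no lower bound of the curvature is assumed, the loss is relative -/
def ST1 (n : ℕ) : Prop := ∀ η > (0 : ℝ), ∃ D > (0 : ℝ), ∀ (M : Type) [Mf0 n M] [ProperSpace M]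
  (g : Fld n M) (v : Fin n → M → ℝ), Met g → CC ∞ v → Lp g → ∀ A : Set M, IsCompact A →
  ∀ (I : Type) [Fintype I] (p : I → M), (∀ x ∈ A, ∃ i, dist x (p i) ≤ 1) → ∀ ε > (0 : ℝ),
  ∃ (g' : Fld n M) (v' : Fin n → M → ℝ) (l : M → ℝ) (s : I → M → ℝ), Ok g' v' l ∧ Up g g' ∧
    (∀ x ∉ cthickening D A, g' x = g x ∧ (∀ i, v' i x = v i x) ∧ l x = 1) ∧
    (∀ i, Smooth (s i)) ∧ (∀ x ∈ A, ∃ i, 1 ≤ s i x) ∧ (∀ i x, 0 < s i x → dist x (p i) ≤ D) ∧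
    ∀ x, l x ≤ 1 ∧ Rv g v x - η + (1 / l x ^ 2 - 1) ≤ Rv g' v' x ∧ gn g' l x ≤ ε ∧
      ∀ i, 0 < s i x → s i x < 1 → l x * gn g' (s i) x ≤ ε

/-- **BLE**: the radial lemma in dimension `m + 1`, end points only -/
def BLE (m : ℕ) : Prop := ∃ C ≥ (1 : ℝ), ∃ c > (0 : ℝ), ∀ a > (0 : ℝ), ∀ η > (0 : ℝ),
  ∃ ε₀ > (0 : ℝ), ∀ ε, 0 < ε → ε ≤ ε₀ → ∀ (M : Type) [Mf0 (m + 1) M] (g : Fld (m + 1) M)
  (v : Fin (m + 1) → M → ℝ) (l : M → ℝ) (G : Fin m → M → ℝ) (U : Set M), Ok g v l →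
  (∀ i, Smooth (G i)) → IsOpen U → IsCompact {x ∈ U | nsq G x ≤ 4} →
  (∀ x ∈ U, nsq G x ≤ 4 → a ≤ l x ^ 2 * Rv g v x ∧ gn g l x ≤ ε ∧ ∀ i, l x * gn g (G i) x ≤ ε) →
  ∃ (g' : Fld (m + 1) M) (v' : Fin (m + 1) → M → ℝ) (l' : M → ℝ) (G' : Fin m → M → ℝ),
    Ok g' v' l' ∧ (∀ i, Smooth (G' i)) ∧
    (∀ x, x ∉ U ∨ 4 < nsq G x → g' x = g x ∧ (∀ i, v' i x = v i x) ∧ l' x = l x) ∧
    (∀ x, x ∉ U ∨ 1 ≤ nsq G x → ∀ i, G' i x = G i x) ∧ (∀ x ∈ U, c ≤ nsq G' x) ∧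
    ∀ x ∈ U, nsq G x ≤ 4 → a - η ≤ l' x ^ 2 * Rv g' v' x ∧ gn g' l' x ≤ C * ε ∧
      (∀ i, l' x * gn g' (G' i) x ≤ C * ε) ∧
      ∀ u : M → ℝ, l' x * gn g' u x ≤ C * (l x * gn g u x)

end Vale.Agent.P210U
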