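import Vale.Agent.P210U.Band
import Vale.Agent.P210E.Chain
import Vale.Agent.P210L.Lev

/-!
# P210U: the neck (helper22)
-/

open Filter Topology Set Metric Real
open scoped ContDiff
open Vale.Agent.P366M Vale.Agent.P366M.Gr Vale.Agent.P366M.Y.C Vale.Agent.P210G Vale.Agent.P210E

noncomputable section

namespace Vale.Agent.P210U

variable {n m : ℕ} {M : Type} [Mf0 n M] {U : Set M} {G : Fin m → M → ℝ}

theorem Rad.ann (R : Rad U G) (a : ℝ) {b : ℝ} (hb : b ≤ 4) :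
    IsCompact {x ∈ U | a ≤ nsq G x ∧ nsq G x ≤ b} := by
  convert (R.cpt' hb).inter_right (isClosed_le (continuous_const (y := a)) R.cn) using 1
  exact subset_antisymm (fun x k => ⟨⟨k.1, k.2.2⟩, k.2.1⟩) fun x k => ⟨k.1.1, k.2, k.1.2⟩

theorem Rad.ann' (R : Rad U G) (a b : ℝ) : IsOpen {x ∈ U | a < nsq G x ∧ nsq G x < b} := by
  convert (R.opn_in b).inter (isOpen_lt (continuous_const (y := a)) R.cn) using 1
  exact subset_antisymm (fun x k => ⟨⟨k.1, k.2.2⟩, k.2.1⟩) fun x k => ⟨k.1.1, k.2, k.1.2⟩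

theorem gb_shift (g : Fld n M) (w : M → ℝ) (t : ℝ) : gb g 1 (fun x => w x - t) = gb g 1 w := by
  funext x i j; simp only [gb, pd_sub_const]

theorem lw_shift (g : Fld n M) (w : M → ℝ) (t : ℝ) : lw g (fun x => w x - t) = lw g w := by
  funext x; simp only [lw, ww, ip, pd_sub_const]

/-- **NECK** -/
theorem neck (n m : ℕ) (hn : 0 < n) (HM : MOVE n) (HG : GRADO) : NECK n m := by
  obtain ⟨C₁, c1, H₁⟩ := locgrad m
  obtain ⟨C₂, c2, H₂⟩ := band m
  intro η η0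
  have c3 : 0 < C₁ + C₂ + 1 := by positivity
  set ε₀ := min 1 (η / (4 * (C₁ + C₂ + 1))) with hε
  have e0 : 0 < ε₀ := by positivity
  have e1 : (C₁ + C₂) * ε₀ ^ 2 ≤ η / 4 := by
    have a1 : ε₀ ≤ 1 := min_le_left _ _
    have a2 : ε₀ * (4 * (C₁ + C₂ + 1)) ≤ η := (le_div_iff₀ (by positivity)).1 (min_le_right _ _)
    nlinarith [mul_le_mul_of_nonneg_left a1 (by positivity : 0 ≤ (C₁ + C₂) * ε₀)]
  refine ⟨ε₀, e0, fun a ε hε M _ g v l G O B => ?_⟩
  have R : Rad O G := ⟨B.smG, B.opn, B.cpt⟩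
  have hg := B.ok.met
  have b1 : ∀ x ∈ O, nsq G x ≤ 4 → gn g l x ≤ ε₀ ∧ ∀ i, l x * gn g (G i) x ≤ ε₀ := fun x k k' =>
    ⟨(B.bd x ⟨k, k'⟩).2.1.trans hε, fun i => ((B.bd x ⟨k, k'⟩).2.2 i).trans hε⟩
  obtain ⟨L, hL⟩ := B.cpt.exists_bound_of_continuousOn (B.ok.sml.cont.pow 2).continuousOn
  have L0 : 0 < |L| + 1 := by positivity
  have l1 : ∀ x ∈ K4 G O, ∀ t, 0 ≤ t → l x ^ 2 * (t / (|L| + 1)) ≤ t := fun x k t t0 => by
    have : l x ^ 2 ≤ |L| := ((le_abs_self _).trans (hL x k)).trans (le_abs_self L)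
    rw [← mul_div_assoc, div_le_iff₀ L0]
    nlinarith
  obtain ⟨f, sf, hf⟩ := HG n M g v (Rv g v) univ _ (η / 4 / (|L| + 1)) hn hg B.ok.cc
    (sm_Rv hg B.ok.cc) isOpen_univ B.cpt (subset_univ _) (by positivity) fun _ _ => le_rfl
  have f1 : ∀ x ∈ K4 G O, a - η / 4 ≤ l x ^ 2 * P366D.Rf g f x := fun x k => by
    have := mul_le_mul_of_nonneg_left (hf x k) (sq_nonneg (l x))
    linarith [l1 x k (η / 4) (by positivity), (B.bd x k).1]
  obtain ⟨v₁, cv, v1, v2, v3⟩ := H₁ B.ok (CC.neg sf.cc_pd) R fun x k k' => (b1 x k k').2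
  have v4 : ∀ x ∈ K4 G O, a - η / 4 - C₁ * ε₀ ^ 2 ≤ l x ^ 2 * Rv g v₁ x := fun x k => by
    refine le_trans ?_ (v3 x)
    rw [mul_min_of_nonneg _ _ (sq_nonneg _), Rv_neg_df (sf.c2 x)]
    exact sub_le_sub_right (le_min (by linarith [(B.bd x k).1]) (f1 x k)) _
  have cK := R.ann (3 / 8) (b := 3 / 4) (by norm_num)
  have iK : {x ∈ O | 3 / 8 < nsq G x ∧ nsq G x < 3 / 4} ⊆
      interior {x ∈ O | 3 / 8 ≤ nsq G x ∧ nsq G x ≤ 3 / 4} :=
    interior_maximal (fun y q => ⟨q.1, q.2.1.le, q.2.2.le⟩) (R.ann' _ _)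
  obtain ⟨A₀, HM⟩ := HM M g v₁ {x ∈ O | nsq G x < 1 / 2} {x | x ∉ O ∨ 5 / 8 < nsq G x}
    {x ∈ O | nsq G x ≤ 15 / 32} {x | x ∉ O ∨ 21 / 32 ≤ nsq G x}
    {x ∈ O | 7 / 16 ≤ nsq G x ∧ nsq G x ≤ 11 / 16} {x ∈ O | 3 / 8 ≤ nsq G x ∧ nsq G x ≤ 3 / 4}
    hg cv (R.opn_in _) (R.opn_out (by norm_num)) (R.cpt' (by norm_num)).isClosed (R.cls_out _)
    (fun x k => ⟨k.1, by linarith [k.2]⟩) (fun x k => k.imp_right fun k => by linarith)
    cK (R.ann _ (by norm_num)).isClosed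
    (fun x k => iK ⟨k.1, by linarith [k.2.1], by linarith [k.2.2]⟩)
    fun x k => by
      by_contra c
      simp only [mem_union, mem_ofPred_eq] at c
      push Not at c
      exact k ⟨c.2.1, by linarith [c.1 c.2.1], by linarith [c.2.2]⟩
  set A := max A₀ 1 with hA
  have A0 : 0 < A := one_pos.trans_le (le_max_right _ _)
  obtain ⟨h, sh, h1, h2, h3, h4⟩ := H₂ hg B.ok.sml B.ok.l0 R e0 b1 A A0
  have gh : ∀ (b : ℝ) x, gn g (fun y => -h y + b) x = gn g h x := fun b x => by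
    rw [gn_of_pd (u' := h) (s := -1) fun i => by rw [pd_add_const, pd_neg]; ring]
    simp
  set κ := η / 4 / (2 * A + 1) / (|L| + 1) with hκ
  have κ1 : ∀ x ∈ K4 G O, l x ^ 2 * κ * (2 * A + 1) ≤ η / 4 := fun x k =>
    (le_div_iff₀ (by positivity)).1 (l1 x k _ (by positivity))
  choose α α0 α1 w vs mv using fun i : ℕ => HM A (le_max_left _ _) (fun x => -h x) (CD.neg sh)
    (fun x => by simpa using h1 x) (fun x k => by rw [h3 x k.1 k.2.le, neg_neg])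
    (fun x k => by rw [h2 x (k.imp_right le_of_lt)]) κ (by positivity) (i + 1) (by positivity)
  have hh : ∀ i, ∀ x ∈ O, 7 / 16 < nsq G x → nsq G x < 11 / 16 →
      hw g f (w i) x = hv g v₁ (w i) x := fun i x k _ k' => by
    rw [← hv_neg_df hg]
    simp only [hv, Dv, ev, v1 x k (by linarith)]
  obtain ⟨t, b, hb, ht, vf⟩ := P210L.exists_vf (κ := κ) (Λ := 2 * A + 1) hg sf (CD.neg sh)
    (R.ann' (7 / 16) (11 / 16)) (R.ann (15 / 32) (b := 21 / 32) (by norm_num))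
    (fun x k => ⟨k.1, by linarith [k.2.1], by linarith [k.2.2]⟩) (L := fun i => i + 1)
    (fun i => (mv i).smw) (fun i => (α0 i).le)
    (tendsto_atTop_add_const_right _ _ tendsto_natCast_atTop_atTop) α1
    (fun i x k => by rw [hh i x k.1 k.2.1 k.2.2]; exact (mv i).bd x ⟨k.1, k.2.1.le, k.2.2.le⟩)
    (fun i x k q => by
      rw [hh i x k.1 k.2.1 k.2.2]; exact (mv i).eq x ⟨k.1, k.2.1.le, k.2.2.le⟩ q.le)
    fun i x q => by
      have q1 := (mv i).lo x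
      have q2 := (mv i).hi x
      obtain ⟨q3, q4⟩ := abs_lt.1 q
      have k : ¬(x ∉ O ∨ 21 / 32 ≤ nsq G x) := fun k => (q2 k).not_gt q4
      push Not at k
      exact ⟨k.1, le_of_not_gt fun c => (q1 ⟨k.1, c.le⟩).not_gt q3, k.2.le⟩
  have dv : ∀ x (y : ℝ), a - η ≤ l x ^ 2 * y → (a - η) / l x ^ 2 ≤ y := fun x y k =>
    (div_le_iff₀' (pow_pos (B.ok.l0 x) 2)).2 k
  have p1 := mul_nonneg c1 (sq_nonneg ε₀)
  have p2 := mul_nonneg c2 (sq_nonneg ε₀)
  have le := Nat.hyperfilter_le_atTop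
  refine ⟨f, _, _, vs, _, _, _, _, _, vf, fun x k => k, fun x k => dv x _ ?_, fun i => ?_,
    fun i x k j => ?_, fun S => ?_, fun S => ?_⟩
  · have k4 : x ∈ K4 G O := ⟨k.1, by linarith [k.2.2]⟩
    have a1 : h x ^ 2 - κ * (2 * A + 1) ≤ (-h x + b) ^ 2 := by
      have := abs_le.1 ((abs_mul _ _).le.trans (mul_le_mul (h1 x) hb (abs_nonneg _) A0.le))
      nlinarith [sq_nonneg b, (abs_nonneg b).trans hb]
    rw [gh]
    linarith [f1 x k4, h4 x, κ1 x k4, mul_le_mul_of_nonneg_left a1 (sq_nonneg (l x))]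
  · rw [gb_shift]
    refine (Seg.drift (B.val (by linarith)) ⟨hg, cv, Up.rfl' g, fun x k => dv x _ (by
      linarith [v4 x k])⟩ fun x k i => (v2 x ?_ i).symm).reach.trans
      ((mv i).rch.enl cK.isClosed (fun x k => ⟨k.1, by linarith [k.2.2]⟩) (fun x k => dv x _ ?_)
        fun x k _ => dv x _ (by linarith [v4 x k]))
    · by_contra c
      push Not at c
      exact k ⟨c.1, by linarith [c.2]⟩
    · have k4 : x ∈ K4 G O := ⟨k.1, by linarith [k.2.2]⟩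
      have a1 := gh 0 x
      simp only [add_zero] at a1
      have a2 : l x ^ 2 * κ ≤ η / 4 :=
        (le_mul_of_one_le_right (by positivity) (by linarith)).trans (κ1 x k4)
      rw [mul_sub, mul_min_of_nonneg _ _ (sq_nonneg _), a1, le_sub_iff_add_le, le_min_iff]
      constructor <;> linarith [v4 x k4, h4 x]
  · filter_upwards [(mv i).same x ⟨k.1, k.2.1.le, k.2.2.le⟩ j,
      R.ev_in (r := 1) k.1 (by linarith [k.2.2])] with y a1 a2
    rw [a1]
    simp only [vg, lw_shift, v1 y a2.1 (by linarith [a2.2])]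
  · filter_upwards [le (ht (S + 1))] with i hi x k
    have := (mv i).hi x (k.imp_right fun k => by linarith)
    linarith [le_abs_self (t i), show |t i| + (S + 1) ≤ i + 1 from hi]
  · filter_upwards [le (ht (S + 1))] with i hi x k k'
    have := (mv i).lo x ⟨k, by linarith⟩
    linarith [neg_abs_le (t i), show |t i| + (S + 1) ≤ i + 1 from hi]

end Vale.Agent.P210U
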