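import Vale.Agent.P210U.Out
import Vale.Agent.P210B.Smo
import Vale.Agent.P210B.Main

/-!
# P210U: the question follows from `ST1` and `BLE` (helper22)
-/

open Vale.Agent.P366M Vale.Agent.P210B

namespace Vale.Agent.P210U

theorem lp_of_riem {n : ℕ} {M : Type} [Mf0 n M] {g : Fld n M} (h : Riem g) : Lp g :=
  fun p δ hδ => by
  obtain ⟨ρ, a, b, c⟩ := h.smooth_dist p (lt_min hδ one_pos)
  exact ⟨ρ, a, fun x => (b x).trans (min_le_left _ _), fun x => (c x).trans (by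
    linarith [min_le_right δ 1])⟩

theorem goal_of (h₁ : ∀ n, 3 ≤ n → ST1 n) (h₂ : ∀ m, 2 ≤ m → BLE m) : Goal := fun n hn => by
  obtain ⟨m, rfl⟩ := Nat.exists_eq_add_of_le' (by omega : 2 ≤ n)
  obtain ⟨C, H⟩ := top (h₁ _ hn) (h₂ (m + 1) (by omega))
  refine ⟨C, fun M _ g h hs => ?_⟩
  have := h.prop
  exact H M g h.met (lp_of_riem h) hs

/-- **the question follows from stage 1 and the radial lemma** -/
theorem q1_of (h₁ : ∀ n, 3 ≤ n → ST1 n) (h₂ : ∀ m, 2 ≤ m → BLE m) : Q1 := main_of (goal_of h₁ h₂)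

end Vale.Agent.P210U
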