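import Vale.Agent.P210U.Out
import Vale.Agent.P210G.Gid
import Vale.Agent.P366M.Apx

/-!
# P210U: the forcing term of the radial band, the cut-off and the local gradient drift (helper22)
-/

open Filter Topology Set Metric Real
open scoped ContDiff
open Vale.Agent.P366M Vale.Agent.P210G

noncomputable section

namespace Vale.Agent.P210U

/-- a smooth truncation -/
theorem exists_trunc : ∃ μ : ℝ → ℝ, ∃ D ≥ (1 : ℝ), ContDiff ℝ ∞ μ ∧ (∀ t, |μ t| ≤ 1) ∧
    (∀ t, 1 ≤ t → μ t = 1) ∧ (∀ t, t ≤ -1 → μ t = -1) ∧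
    ∀ t, |deriv μ t| ≤ D ∧ |deriv μ t| * t ^ 2 ≤ D * μ t ^ 2 := by
  set μ : ℝ → ℝ := fun t => t + (1 - t) * smoothTransition (2 * t - 1) -
    (1 + t) * smoothTransition (-2 * t - 1) with hμ
  have s : ContDiff ℝ ∞ μ := by
    have := P366H.sm_st
    simp only [hμ]; fun_prop
  have m1 : ∀ t, 1 ≤ t → μ t = 1 := fun t h => by
    simp only [hμ]
    rw [smoothTransition.one_of_one_le (by linarith), smoothTransition.zero_of_nonpos (by linarith)]
    ring
  have m2 : ∀ t, t ≤ -1 → μ t = -1 := fun t h => by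
    simp only [hμ]
    rw [smoothTransition.zero_of_nonpos (by linarith), smoothTransition.one_of_one_le (by linarith)]
    ring
  have m3 : ∀ t, |t| ≤ 1 → t ^ 2 ≤ μ t ^ 2 ∧ |μ t| ≤ 1 := fun t h => by
    obtain ⟨h1, h2⟩ := abs_le.1 h
    have a1 := smoothTransition.nonneg (2 * t - 1)
    have a2 := smoothTransition.le_one (2 * t - 1)
    have a3 := smoothTransition.nonneg (-2 * t - 1)
    have a4 := smoothTransition.le_one (-2 * t - 1)
    simp only [hμ]
    rcases le_total 0 t with k | k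
    · rw [smoothTransition.zero_of_nonpos (x := -2 * t - 1) (by linarith)]
      have := mul_nonneg (sub_nonneg.2 h2) a1
      exact ⟨by nlinarith, abs_le.2 ⟨by nlinarith, by nlinarith⟩⟩
    · rw [smoothTransition.zero_of_nonpos (x := 2 * t - 1) (by linarith)]
      have := mul_nonneg (by linarith : 0 ≤ 1 + t) a3
      exact ⟨by nlinarith, abs_le.2 ⟨by nlinarith, by nlinarith⟩⟩
  have b : ∀ t, |μ t| ≤ 1 := fun t => by
    rcases le_total t (-1) with h | h
    · simp [m2 t h]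
    · rcases le_total 1 t with h' | h'
      · simp [m1 t h']
      · exact (m3 t (abs_le.2 ⟨h, h'⟩)).2
  obtain ⟨A, hA⟩ := isCompact_Icc.exists_bound_of_continuousOn
    ((s.continuous_deriv (by simp)).continuousOn (s := Icc (-1 : ℝ) 1))
  refine ⟨μ, max 1 A, le_max_left _ _, s, b, m1, m2, fun t => ?_⟩
  by_cases h : |t| ≤ 1
  · have := (hA t (abs_le.1 h)).trans (le_max_right 1 A)
    exact ⟨this, mul_le_mul this (m3 t h).1 (sq_nonneg _) (by positivity)⟩
  · have : deriv μ t = 0 := by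
      rcases lt_abs.1 (not_le.1 h) with k | k
      · exact IsLocalMax.deriv_eq_zero (.of_forall fun u => by
          rw [m1 t k.le]; exact (le_abs_self _).trans (b u))
      · exact IsLocalMin.deriv_eq_zero (.of_forall fun u => by
          rw [m2 t (by linarith)]; exact (abs_le.1 (b u)).1)
    rw [this, abs_zero, zero_mul]
    exact ⟨by positivity, by positivity⟩

/-- the profile of the band -/
theorem exists_prof (T : ℝ) : ∃ τ : ℝ → ℝ, ContDiff ℝ ∞ τ ∧ (∀ s, 5 / 8 ≤ s → τ s = T) ∧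
    (∀ s, s ≤ 1 / 2 → τ s = -T) ∧ ∀ s, |deriv τ s| ≤ 32 * P366H.DD * (1 + τ s ^ 2) := by
  set a : ℝ → ℝ := fun s => arctan T * (2 * smoothTransition (-4 + 8 * s) - 1) with ha
  have b : ∀ s, cos (a s) ≠ 0 := fun s => by
    have a1 := smoothTransition.nonneg (-4 + 8 * s)
    have a2 := smoothTransition.le_one (-4 + 8 * s)
    have a3 : |arctan T| < π / 2 := abs_lt.2 ⟨neg_pi_div_two_lt_arctan T, arctan_lt_pi_div_two T⟩
    have a4 : |a s| ≤ |arctan T| := by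
      simp only [ha, abs_mul]
      exact mul_le_of_le_one_right (abs_nonneg _) (abs_le.2 ⟨by linarith, by linarith⟩)
    exact (cos_pos_of_mem_Ioo (abs_lt.1 (a4.trans_lt a3))).ne'
  have s : ContDiff ℝ ∞ a := by
    have := P366H.sm_st
    simp only [ha]; fun_prop
  refine ⟨fun s => tan (a s), contDiff_iff_contDiffAt.2 fun t =>
    (contDiffAt_tan.2 (b t)).comp t s.contDiffAt, fun s h => ?_, fun s h => ?_, fun s => ?_⟩
  · simp only [ha]
    rw [smoothTransition.one_of_one_le (by linarith)]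
    norm_num [tan_arctan]
  · simp only [ha]
    rw [smoothTransition.zero_of_nonpos (by linarith)]
    norm_num [tan_arctan]
  · have d1 : HasDerivAt a (arctan T * (2 * (P366H.s1 (-4 + 8 * s) * 8))) s :=
      ((((P366H.hd0 _).comp s (by
        simpa using ((hasDerivAt_id s).const_mul (8 : ℝ)).const_add (-4))).const_mul
          2).sub_const 1).const_mul _
    have d2 := ((hasDerivAt_tan (b s)).comp s d1).deriv
    have e : 1 / cos (a s) ^ 2 = 1 + tan (a s) ^ 2 := by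
      rw [one_div, ← inv_one_add_tan_sq (b s), inv_inv]
    have a3 : |arctan T| ≤ 2 := (abs_lt.2 ⟨neg_pi_div_two_lt_arctan T,
      arctan_lt_pi_div_two T⟩).le.trans (by linarith [pi_le_four])
    have q1 := P366H.s1_nn (-4 + 8 * s)
    have q2 := P366H.s1_le (-4 + 8 * s)
    change |deriv (tan ∘ a) s| ≤ _
    rw [d2, e, abs_mul, abs_mul, abs_of_nonneg (by positivity : 0 ≤ 1 + tan (a s) ^ 2),
      abs_of_nonneg (by positivity : 0 ≤ 2 * (P366H.s1 (-4 + 8 * s) * 8)), mul_comm]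
    refine mul_le_mul_of_nonneg_right ?_ (by positivity)
    nlinarith [mul_le_mul a3 q2 q1 two_pos.le]

variable {n m : ℕ} {M : Type} {U : Set M} {G : Fin m → M → ℝ} {F : M → ℝ} {c : ℝ} {x : M}

open Classical in
/-- the extension by the constant `c` -/
def xt (U : Set M) (G : Fin m → M → ℝ) (F : M → ℝ) (c : ℝ) (x : M) : ℝ :=
  if x ∈ U ∧ nsq G x < 3 then F x else c

theorem nsq_ge (G : Fin m → M → ℝ) (x : M) (i : Fin m) : G i x ^ 2 ≤ nsq G x :=
  Finset.single_le_sum (f := fun j => G j x ^ 2) (fun _ _ => sq_nonneg _) (Finset.mem_univ i)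

variable [Mf0 n M] {g : Fld n M} {v : Fin n → M → ℝ} {l : M → ℝ} {ε : ℝ}

/-- the data of the radial lemma -/
structure Rad (U : Set M) (G : Fin m → M → ℝ) : Prop where
  sm : ∀ i, Smooth (G i)
  opn : IsOpen U
  cpt : IsCompact {x ∈ U | nsq G x ≤ 4}

theorem sm_nsq (h : ∀ i, Smooth (G i)) : Smooth (nsq G) := CD.sum fun i _ => CD.pow (h i) 2

theorem Rad.cn (h : Rad U G) : Continuous (nsq G) := (sm_nsq h.sm).cont

theorem Rad.cpt' (h : Rad U G) {r : ℝ} (hr : r ≤ 4) : IsCompact {x ∈ U | nsq G x ≤ r} := by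
  convert h.cpt.inter_right (isClosed_le h.cn (continuous_const (y := r))) using 1
  exact subset_antisymm (fun x k => ⟨⟨k.1, k.2.trans hr⟩, k.2⟩) fun x k => ⟨k.1.1, k.2⟩

theorem Rad.ev_out (h : Rad U G) {r : ℝ} (hr : r ≤ 4) (k : x ∉ U ∨ r < nsq G x) :
    ∀ᶠ y in 𝓝 x, y ∉ U ∨ r < nsq G y := by
  filter_upwards [(h.cpt' hr).isClosed.isOpen_compl.mem_nhds
    (fun a => k.elim (fun b => b a.1) fun b => b.not_ge a.2)] with y hy
  by_contra a
  push Not at a
  exact hy a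

theorem Rad.ev_in (h : Rad U G) {r : ℝ} (k : x ∈ U) (k' : nsq G x < r) :
    ∀ᶠ y in 𝓝 x, y ∈ U ∧ nsq G y < r :=
  (h.opn.eventually_mem k).and (h.cn.continuousAt.eventually (gt_mem_nhds k'))

theorem Rad.xt_in (h : Rad U G) (k : x ∈ U) (k' : nsq G x < 3) : xt U G F c =ᶠ[𝓝 x] F :=
  (h.ev_in k k').mono fun _ hy => if_pos hy

omit [Mf0 n M] in
theorem xt_eq {r : ℝ} (e : ∀ y ∈ U, r ≤ nsq G y → nsq G y ≤ 4 → F y = c)
    (k : x ∉ U ∨ r ≤ nsq G x) : xt U G F c x = c := by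
  unfold xt
  split_ifs with a
  · exact e x a.1 (k.resolve_left fun b => b a.1) (by linarith [a.2])
  · rfl

theorem Rad.xt_out (h : Rad U G) {r : ℝ} (hr : r ≤ 4)
    (e : ∀ y ∈ U, r ≤ nsq G y → nsq G y ≤ 4 → F y = c) (k : x ∉ U ∨ r < nsq G x) :
    xt U G F c =ᶠ[𝓝 x] fun _ => c :=
  (h.ev_out hr k).mono fun _ hy => xt_eq e (hy.imp_right le_of_lt)

theorem Rad.sm_xt (h : Rad U G) (hF : Smooth F) (e : ∀ y ∈ U, 2 ≤ nsq G y → nsq G y ≤ 4 → F y = c) :
    Smooth (xt U G F c) := sm_loc fun x => by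
  by_cases k : x ∉ U ∨ 2 < nsq G x
  · exact ⟨_, cd_const, h.xt_out (by norm_num) e k⟩
  · push Not at k
    exact ⟨_, hF, h.xt_in k.1 (by linarith [k.2])⟩

theorem gn_nsq (hg : Met g) (h : ∀ i, Smooth (G i)) (l0 : 0 ≤ l x) (k : nsq G x ≤ 4)
    (b : ∀ i, l x * gn g (G i) x ≤ ε) : l x * gn g (nsq G) x ≤ 4 * m * ε := by
  have a := hg.gn_sum_le Finset.univ (f := fun i y => G i y ^ 2) (x := x)
    fun i => ((h i).diff x).pow 2
  have e : ∀ i, l x * gn g (fun y => G i y ^ 2) x ≤ 4 * ε := fun i => by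
    rw [gn_comp (φ := fun t => t ^ 2) (hasDerivAt_pow 2 _) ((h i).diff x)]
    have : |G i x| ≤ 2 := abs_le_of_sq_le_sq' (by linarith [nsq_ge G x i]) two_pos.le |> abs_le.2
    have p := mul_nonneg l0 (gn_nonneg g (G i) x)
    have := mul_le_mul this (b i) p two_pos.le
    simp only [Nat.cast_ofNat, Nat.add_one_sub_one, pow_one, abs_mul, Nat.abs_ofNat]
    linarith
  refine (mul_le_mul_of_nonneg_left a l0).trans ?_
  rw [Finset.mul_sum]
  refine (Finset.sum_le_card_nsmul _ _ _ fun i _ => e i).trans (le_of_eq ?_)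
  simp only [Finset.card_univ, Fintype.card_fin, nsmul_eq_mul]
  ring

/-- **BAND** -/
theorem band (m : ℕ) : ∃ C ≥ (0 : ℝ), ∀ {n : ℕ} {M : Type} [Mf0 n M] {g : Fld n M} {l : M → ℝ}
    {U : Set M} {G : Fin m → M → ℝ} {ε : ℝ}, Met g → Smooth l → (∀ x, 0 < l x) → Rad U G → 0 < ε →
    (∀ x ∈ U, nsq G x ≤ 4 → gn g l x ≤ ε ∧ ∀ i, l x * gn g (G i) x ≤ ε) → ∀ M₀ > (0 : ℝ),
    ∃ h : M → ℝ, Smooth h ∧ (∀ x, |h x| ≤ M₀) ∧ (∀ x, x ∉ U ∨ 5 / 8 ≤ nsq G x → h x = M₀) ∧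
      (∀ x ∈ U, nsq G x ≤ 1 / 2 → h x = -M₀) ∧
      ∀ x, -(C * ε ^ 2) ≤ l x ^ 2 * (h x ^ 2 - 2 * gn g h x) := by
  obtain ⟨μ, D, D1, sμ, m0, m1, m2, m3⟩ := exists_trunc
  have D2 := P366H.DD_ge
  set c : ℝ := 128 * P366H.DD * m with hc
  have c0 : 0 ≤ c := by positivity
  refine ⟨D * (2 * D + 2 * c * ((4 * c + 1) * D)), by positivity, ?_⟩
  intro n M _ g l U G ε hg sl l0 R ε0 b M₀ M0
  obtain ⟨L, hL⟩ := R.cpt.exists_bound_of_continuousOn sl.cont.continuousOn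
  set κ : ℝ := (4 * c + 1) * D * ε with hκ
  have κ0 : 0 < κ := by positivity
  obtain ⟨τ, sτ, t1, t2, t3⟩ := exists_prof (M₀ * L / κ)
  have si : Smooth fun x => (l x)⁻¹ := CD.inv sl fun x => (l0 x).ne'
  have st : Smooth fun x => τ (nsq G x) := sτ.compM (sm_nsq R.sm)
  set a : M → ℝ := fun x => κ / M₀ * (τ (nsq G x) * (l x)⁻¹) with ha
  have sa : Smooth a := CD.mul cd_const (CD.mul st si)
  have q : ∀ x ∈ U, nsq G x ≤ 4 → 1 ≤ κ / M₀ * (M₀ * L / κ * (l x)⁻¹) := fun x k k' => by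
    have := (le_abs_self _).trans (hL x ⟨k, k'⟩)
    rw [show κ / M₀ * (M₀ * L / κ * (l x)⁻¹) = L / l x by field_simp, le_div_iff₀ (l0 x)]
    linarith
  have e : ∀ y ∈ U, 5 / 8 ≤ nsq G y → nsq G y ≤ 4 → M₀ * μ (a y) = M₀ := fun y k k1 k2 => by
    rw [m1 _ (by simp only [ha, t1 _ k1]; exact q y k k2), mul_one]
  have sF : Smooth fun x => M₀ * μ (a x) := CD.mul cd_const (sμ.compM sa)
  refine ⟨xt U G (fun x => M₀ * μ (a x)) M₀, R.sm_xt sF fun y k k1 => e y k (by linarith),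
    fun x => ?_, fun x => xt_eq e, fun x k k' => ?_, fun x => ?_⟩
  · unfold xt
    split_ifs
    · rw [abs_mul, abs_of_pos M0]; exact mul_le_of_le_one_right M0.le (m0 _)
    · exact (abs_of_pos M0).le
  · rw [(R.xt_in k (by linarith)).self_of_nhds, m2, mul_neg_one]
    have := q x k (by linarith)
    simp only [ha, t2 _ k']
    linarith
  by_cases k : x ∉ U ∨ 1 < nsq G x
  · rw [gn_congr (R.xt_out (by norm_num) (fun y k k1 => e y k (by linarith)) k),
      gn_zero fun i => pd_const _ i x]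
    have : 0 ≤ D * (2 * D + 2 * c * ((4 * c + 1) * D)) * ε ^ 2 := by positivity
    nlinarith [mul_nonneg (sq_nonneg (l x)) (sq_nonneg (xt U G (fun x => M₀ * μ (a x)) M₀ x))]
  push Not at k
  have ev := R.xt_in (F := fun x => M₀ * μ (a x)) (c := M₀) k.1 (by linarith [k.2])
  obtain ⟨b1, b2⟩ := b x k.1 (by linarith [k.2])
  have lx := l0 x
  have g1 := gn_nsq hg R.sm lx.le (by linarith [k.2]) b2
  have g2 : l x * gn g (fun y => τ (nsq G y)) x ≤ c * ε * (1 + τ (nsq G x) ^ 2) := by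
    rw [gn_comp (sτ.differentiable (by simp) _).hasDerivAt ((sm_nsq R.sm).diff x), mul_left_comm]
    refine (mul_le_mul (t3 _) g1 (mul_nonneg lx.le (gn_nonneg _ _ _)) (by positivity)).trans
      (le_of_eq ?_)
    rw [hc]; ring
  have g3 : gn g (fun y => τ (nsq G y) * (l y)⁻¹) x ≤
      (l x)⁻¹ * gn g (fun y => τ (nsq G y)) x + |τ (nsq G x)| * (gn g l x / l x ^ 2) := by
    refine (hg.gn_add_le (u₁ := fun y => (l x)⁻¹ * τ (nsq G y))
      (u₂ := fun y => τ (nsq G x) * (l y)⁻¹) fun i => ?_).trans (le_of_eq ?_)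
    · rw [pd_mul (st.diff x) (si.diff x), pd_const_mul, pd_const_mul]; ring
    · rw [gn_of_pd (pd_const_mul _), gn_of_pd (pd_const_mul _), gn_inv _ sl lx,
        abs_of_pos (inv_pos.2 lx)]
  have g4 : l x ^ 2 * gn g (fun y => τ (nsq G y) * (l y)⁻¹) x ≤
      c * ε * (1 + τ (nsq G x) ^ 2) + |τ (nsq G x)| * ε := by
    refine (mul_le_mul_of_nonneg_left g3 (sq_nonneg _)).trans ?_
    rw [show l x ^ 2 * ((l x)⁻¹ * gn g (fun y => τ (nsq G y)) x +
      |τ (nsq G x)| * (gn g l x / l x ^ 2)) = l x * gn g (fun y => τ (nsq G y)) x +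
      |τ (nsq G x)| * gn g l x by field_simp]
    exact add_le_add g2 (mul_le_mul_of_nonneg_left b1 (abs_nonneg _))
  have g5 : gn g (fun y => M₀ * μ (a y)) x =
      |deriv μ (a x)| * (κ * gn g (fun y => τ (nsq G y) * (l y)⁻¹) x) := by
    rw [gn_of_pd (pd_const_mul _), gn_comp (sμ.differentiable (by simp) _).hasDerivAt (sa.diff x),
      gn_of_pd (u := a) (pd_const_mul _), abs_of_pos M0, abs_of_pos (div_pos κ0 M0)]
    field_simp
  obtain ⟨d1, d2⟩ := m3 (a x)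
  set t := τ (nsq G x) with ht
  have g6 : 2 * (κ * (c * ε * (1 + t ^ 2) + |t| * ε)) * D ≤
      κ ^ 2 * t ^ 2 + D * (2 * D + 2 * c * ((4 * c + 1) * D)) * ε ^ 2 := by
    have r1 : 4 * c * D * ε ≤ κ := by rw [hκ]; nlinarith [mul_pos (by linarith : 0 < D) ε0]
    have r2 := mul_le_mul_of_nonneg_right r1 (by positivity : 0 ≤ κ * t ^ 2)
    have r3 := sq_nonneg (κ * |t| - 2 * D * ε)
    have r4 := sq_abs t
    have r5 : κ * c * ε * D * 2 = D * (2 * c * ((4 * c + 1) * D)) * ε ^ 2 := by rw [hκ]; ring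
    nlinarith
  have g7 : |deriv μ (a x)| * (κ ^ 2 * t ^ 2) ≤ D * (l x ^ 2 * (M₀ * μ (a x)) ^ 2) := by
    have := mul_le_mul_of_nonneg_left d2 (by positivity : 0 ≤ l x ^ 2 * M₀ ^ 2)
    have r : a x ^ 2 * (l x ^ 2 * M₀ ^ 2) = κ ^ 2 * t ^ 2 := by simp only [ha, ht]; field_simp
    rw [← r]; linarith
  rw [gn_congr ev, ev.self_of_nhds, g5]
  have z := abs_nonneg (deriv μ (a x))
  have g8 := mul_le_mul_of_nonneg_left g4 (by positivity : 0 ≤ 2 * |deriv μ (a x)| * κ * D)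
  have g9 := mul_le_mul_of_nonneg_left g6 z
  have g10 := mul_le_mul_of_nonneg_right d1
    (by positivity : 0 ≤ D * (2 * D + 2 * c * ((4 * c + 1) * D)) * ε ^ 2)
  refine le_of_mul_le_mul_left ?_ (by linarith : 0 < D)
  linarith

theorem st_one {a b t : ℝ} (h : 1 ≤ a + b * t) : smoothTransition (a + b * t) = 1 :=
  smoothTransition.one_of_one_le h

theorem st_zero {a b t : ℝ} (h : a + b * t ≤ 0) : smoothTransition (a + b * t) = 0 :=
  smoothTransition.zero_of_nonpos h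

theorem Rad.opn_out (R : Rad U G) {r : ℝ} (hr : r ≤ 4) : IsOpen {x | x ∉ U ∨ r < nsq G x} :=
  isOpen_iff_mem_nhds.2 fun _ h => R.ev_out hr h

theorem Rad.opn_in (R : Rad U G) (r : ℝ) : IsOpen {x ∈ U | nsq G x < r} :=
  isOpen_iff_mem_nhds.2 fun _ h => R.ev_in h.1 h.2

theorem Rad.cls_out (R : Rad U G) (r : ℝ) : IsClosed {x | x ∉ U ∨ r ≤ nsq G x} := by
  convert (R.opn_in r).isClosed_compl using 1
  ext x
  simp only [mem_ofPred_eq, mem_compl_iff, not_and, not_lt]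
  tauto

/-- **CUT**: the cut-off of the radial move -/
theorem Rad.cut (R : Rad U G) : ∃ χ : M → ℝ, Smooth χ ∧ (∀ x, 0 ≤ χ x ∧ χ x ≤ 1) ∧
    (∀ x ∈ U, 7 / 25 ≤ nsq G x → nsq G x ≤ 47 / 50 → χ x = 1) ∧
    (∀ x ∈ closure {x | χ x ≠ 1}, (x ∉ U ∨ 47 / 50 ≤ nsq G x) ∨ (x ∈ U ∧ nsq G x ≤ 7 / 25)) ∧
    ∀ x ∈ tsupport χ, x ∈ U ∧ 13 / 50 ≤ nsq G x ∧ nsq G x ≤ 49 / 50 := by
  set F : M → ℝ := fun x => smoothTransition (-13 + 50 * nsq G x) *
    smoothTransition (49 / 2 + -25 * nsq G x) with hF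
  have e : ∀ y ∈ U, 49 / 50 ≤ nsq G y → nsq G y ≤ 4 → F y = 0 := fun y _ k _ => by
    simp only [hF]; rw [st_zero (a := 49 / 2) (by linarith), mul_zero]
  have o : ∀ x ∈ U, 7 / 25 ≤ nsq G x → nsq G x ≤ 47 / 50 → xt U G F 0 x = 1 := fun x k a b => by
    rw [(R.xt_in k (by linarith)).self_of_nhds]
    simp only [hF]; rw [st_one (by linarith), st_one (by linarith), mul_one]
  refine ⟨xt U G F 0, R.sm_xt (CD.mul (sm_st (sm_nsq R.sm) _ _) (sm_st (sm_nsq R.sm) _ _))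
    fun y k a => e y k (by linarith), fun x => ?_, o, ?_, ?_⟩
  · unfold xt
    split_ifs
    · exact ⟨mul_nonneg (smoothTransition.nonneg _) (smoothTransition.nonneg _), mul_le_one₀
        (smoothTransition.le_one _) (smoothTransition.nonneg _) (smoothTransition.le_one _)⟩
    · exact ⟨le_rfl, zero_le_one⟩
  · refine closure_minimal (t := {x | x ∉ U ∨ 47 / 50 ≤ nsq G x} ∪ {x ∈ U | nsq G x ≤ 7 / 25})
      (fun x k => ?_) ((R.cls_out _).union (R.cpt' (by norm_num)).isClosed)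
    by_contra a
    simp only [mem_union, mem_ofPred_eq] at a
    push Not at a
    exact k (o x a.1.1 (a.2 a.1.1).le a.1.2.le)
  · have : tsupport (xt U G F 0) ⊆ {x ∈ U | nsq G x ≤ 49 / 50} ∩ {x | 13 / 50 ≤ nsq G x} := by
      refine closure_minimal (fun x k => ?_)
        ((R.cpt' (by norm_num)).isClosed.inter (isClosed_le continuous_const R.cn))
      have a : ¬(x ∉ U ∨ 49 / 50 ≤ nsq G x) := fun a => k (xt_eq e a)
      push Not at a
      refine ⟨⟨a.1, a.2.le⟩, show 13 / 50 ≤ nsq G x from le_of_not_gt fun b => k ?_⟩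
      rw [(R.xt_in a.1 (by linarith [a.2])).self_of_nhds]
      simp only [hF]; rw [st_zero (by linarith), zero_mul]
    exact fun x k => ⟨(this k).1.1, (this k).2, (this k).1.2⟩

/-- **LOCGRAD**: the drift is replaced by `a` on `{nsq G ≤ 3 / 2}` -/
theorem locgrad (m : ℕ) : ∃ C ≥ (0 : ℝ), ∀ {n : ℕ} {X : Type} [Mf0 n X] {g : Fld n X}
    {v a : Fin n → X → ℝ} {l : X → ℝ} {U : Set X} {G : Fin m → X → ℝ} {ε : ℝ}, Ok g v l → CC ∞ a →
    Rad U G → (∀ x ∈ U, nsq G x ≤ 4 → ∀ i, l x * gn g (G i) x ≤ ε) →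
    ∃ v₁ : Fin n → X → ℝ, CC ∞ v₁ ∧ (∀ x ∈ U, nsq G x ≤ 3 / 2 → ∀ i, v₁ i x = a i x) ∧
      (∀ x, x ∉ U ∨ 2 ≤ nsq G x → ∀ i, v₁ i x = v i x) ∧
      ∀ x, l x ^ 2 * min (Rv g v x) (Rv g a x) - C * ε ^ 2 ≤ l x ^ 2 * Rv g v₁ x := by
  have D1 := P366H.DD_ge
  refine ⟨4 * (2 * (P366H.DD * 2 * (4 * m))) ^ 2, by positivity, ?_⟩
  intro n X _ g v a l U G ε ok cf R b
  set F : X → ℝ := fun x => π / 2 * smoothTransition (4 + -2 * nsq G x) with hF
  have e : ∀ y ∈ U, 2 ≤ nsq G y → nsq G y ≤ 4 → F y = 0 := fun y _ k _ => by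
    simp only [hF]; rw [st_zero (by linarith), mul_zero]
  have sβ : Smooth (xt U G F 0) := R.sm_xt (CD.mul cd_const (sm_st (sm_nsq R.sm) _ _)) e
  set β := xt U G F 0 with hβ
  have c1 : CC ∞ fun i y => sin (β y) ^ 2 * a i y + cos (β y) ^ 2 * v i y :=
    CC.add (CC.smul (CD.pow (contDiff_sin.compM sβ) 2) cf)
      (CC.smul (CD.pow (contDiff_cos.compM sβ) 2) ok.cc)
  have gβ : ∀ x, l x ^ 2 * ip g β β x ≤ (2 * (P366H.DD * 2 * (4 * m))) ^ 2 * ε ^ 2 := fun x => by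
    rw [← ok.met.gn_sq, ← mul_pow, ← mul_pow]
    by_cases k : x ∉ U ∨ 2 < nsq G x
    · rw [gn_congr (R.xt_out (by norm_num) e k), gn_zero fun i => pd_const _ i x]
      simp only [mul_zero, ne_eq, OfNat.ofNat_ne_zero, not_false_eq_true, zero_pow]
      positivity
    push Not at k
    have l0 := ok.l0 x
    refine pow_le_pow_left₀ (mul_nonneg l0.le (gn_nonneg _ _ _)) ?_ 2
    have g1 := gn_nsq ok.met R.sm l0.le (by linarith [k.2]) (b x k.1 (by linarith [k.2]))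
    have g2 := gn_st g (u := fun y => -nsq G y) (CD.neg (sm_nsq R.sm)) two_pos.le 4 x
    rw [gn_of_pd (u := fun y => -nsq G y) (u' := nsq G) (s := -1) fun i => by
      rw [pd_neg]; ring] at g2
    rw [gn_congr (R.xt_in k.1 (by linarith [k.2])), gn_of_pd (pd_const_mul _),
      abs_of_pos (half_pos pi_pos)]
    simp only [neg_mul, ← mul_neg]
    have g3 := mul_le_mul (by linarith [pi_le_four] : π / 2 ≤ 2)
      (mul_le_mul_of_nonneg_left g2 l0.le) (mul_nonneg l0.le (gn_nonneg _ _ _)) two_pos.le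
    have g4 := mul_le_mul_of_nonneg_left g1 (by positivity : 0 ≤ 2 * (P366H.DD * 2))
    simp only [abs_neg, abs_one, one_mul] at g3
    linarith
  refine ⟨_, c1, fun x k a i => ?_, fun x k i => ?_, fun x => ?_⟩
  · rw [hβ, (R.xt_in k (by linarith)).self_of_nhds]
    simp only [hF]; rw [st_one (by linarith)]; simp
  · rw [hβ, xt_eq e k]; simp
  · have h2 := Rv_sin ok.met (sβ.diff x) (dV_sh ok.met cf x) (dV_sh ok.met ok.cc x)
    have h3 := mul_le_mul_of_nonneg_left (min_le_left (Rv g v x) (Rv g a x)) (sq_nonneg (cos (β x)))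
    have h4 := mul_le_mul_of_nonneg_left (min_le_right (Rv g v x) (Rv g a x)) (sq_nonneg (sin (β x)))
    have h5 : min (Rv g v x) (Rv g a x) - 4 * ip g β β x ≤
        Rv g (fun i y => sin (β y) ^ 2 * a i y + cos (β y) ^ 2 * v i y) x := by
      have := congrArg (· * min (Rv g v x) (Rv g a x)) (sin_sq_add_cos_sq (β x))
      linarith
    nlinarith [mul_le_mul_of_nonneg_left h5 (sq_nonneg (l x)), gβ x]

end Vale.Agent.P210U
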