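import Vale.Agent.P210U.Loc
import Vale.Agent.P366H.Fn

/-!
# P210U: finitely many tuples, one at a time (helper22)
-/

open Filter Topology Set Metric Real
open scoped ContDiff
open Vale.Agent.P366M Vale.Agent.P210G

noncomputable section

namespace Vale.Agent.P210U

/-- the values of the data at a point -/
abbrev Vl (n : ℕ) (ι : Type) := (Fin n → Fin n → ℝ) × (Fin n → ℝ) × ℝ × (ι → ℝ)

section

variable {n : ℕ} {M ι : Type}

/-- the metric -/
def gg (d : M → Vl n ι) : Fld n M := fun x => (d x).1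

/-- the drift -/
def vv (d : M → Vl n ι) : Fin n → M → ℝ := fun i x => (d x).2.1 i

/-- the scale -/
def ll (d : M → Vl n ι) : M → ℝ := fun x => (d x).2.2.1

/-- the bands -/
def ss (d : M → Vl n ι) : ι → M → ℝ := fun i x => (d x).2.2.2 i

/-- the data -/
def mk (g : Fld n M) (v : Fin n → M → ℝ) (l : M → ℝ) (s : ι → M → ℝ) : M → Vl n ι :=
  fun x => (g x, fun i => v i x, l x, fun i => s i x)

/-- the bands shrink -/
def Ref (d d' : M → Vl n ι) : Prop :=
  ∀ i x, (ss d i x ≤ 0 → ss d' i x ≤ 0) ∧ (1 ≤ ss d i x → 1 ≤ ss d' i x)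

/-- the zones of the tuple have no common point -/
def Kill {m : ℕ} (τ : Fin m → ι) (d : M → Vl n ι) : Prop :=
  ∀ x, ∃ j, ss d (τ j) x ≤ 0 ∨ 1 ≤ ss d (τ j) x

theorem Ref.rfl' (d : M → Vl n ι) : Ref d d := fun _ _ => ⟨id, id⟩

theorem Ref.trans {d d' d'' : M → Vl n ι} (h : Ref d d') (h' : Ref d' d'') : Ref d d'' :=
  fun i x => ⟨fun a => (h' i x).1 ((h i x).1 a), fun a => (h' i x).2 ((h i x).2 a)⟩

theorem Kill.ref {m : ℕ} {τ : Fin m → ι} {d d' : M → Vl n ι} (h : Kill τ d) (h' : Ref d d') :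
    Kill τ d' := fun x => (h x).imp fun _ a => a.imp (h' _ x).1 (h' _ x).2

variable [Mf0 n M]

/-- smooth data; the bands vanish outside the sets `U i` -/
structure Gd (U : ι → Set M) (d : M → Vl n ι) : Prop where
  ok : Ok (gg d) (vv d) (ll d)
  sm : ∀ i, Smooth (ss d i)
  sp : ∀ i, ∀ x ∉ U i, ss d i x = 0

/-- the bounds at a point -/
def Bd (a ε : ℝ) (d : M → Vl n ι) (x : M) : Prop :=
  a ≤ ll d x ^ 2 * Rv (gg d) (vv d) x ∧ gn (gg d) (ll d) x ≤ ε ∧
    ∀ i, 0 < ss d i x → ss d i x < 1 → ll d x * gn (gg d) (ss d i) x ≤ ε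

variable {d d' : M → Vl n ι} {x : M} {a a' ε ε' : ℝ} {U : ι → Set M}

theorem Bd.mono (h : Bd a ε d x) (ha : a' ≤ a) (hε : ε ≤ ε') : Bd a' ε' d x :=
  ⟨ha.trans h.1, h.2.1.trans hε, fun i p q => (h.2.2 i p q).trans hε⟩

theorem Bd.congr (h : Bd a ε d x) (e : d' =ᶠ[𝓝 x] d) : Bd a ε d' x := by
  have eg : gg d' =ᶠ[𝓝 x] gg d := e.mono fun y hy => by simp only [gg, hy]
  have ev : ∀ i, vv d' i =ᶠ[𝓝 x] vv d i := fun i => e.mono fun y hy => by simp only [vv, hy]
  have el : ll d' =ᶠ[𝓝 x] ll d := e.mono fun y hy => by simp only [ll, hy]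
  have es : ∀ i, ss d' i =ᶠ[𝓝 x] ss d i := fun i => e.mono fun y hy => by simp only [ss, hy]
  unfold Bd
  rw [Rv_of_ev eg ev, gn_of_ev eg el, el.self_of_nhds]
  refine ⟨h.1, h.2.1, fun i => ?_⟩
  rw [gn_of_ev eg (es i), (es i).self_of_nhds]
  exact h.2.2 i

theorem gd_loc (h : ∀ x, ∃ d', Gd U d' ∧ d =ᶠ[𝓝 x] d') : Gd U d := by
  refine ⟨⟨met_loc fun x => ?_, cc_loc fun x => ?_, sm_loc fun x => ?_, fun x => ?_⟩,
    fun i => sm_loc fun x => ?_, fun i x hx => ?_⟩ <;> obtain ⟨d', p, e⟩ := h x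
  · exact ⟨_, p.ok.met, e.mono fun y hy => by simp only [gg, hy]⟩
  · exact ⟨_, p.ok.cc, fun i => e.mono fun y hy => by simp only [vv, hy]⟩
  · exact ⟨_, p.ok.sml, e.mono fun y hy => by simp only [ll, hy]⟩
  · have := p.ok.l0 x
    simpa only [ll, e.self_of_nhds] using this
  · exact ⟨_, p.sm i, e.mono fun y hy => by simp only [ss, hy]⟩
  · have := p.sp i x hx
    simpa only [ss, e.self_of_nhds] using this

theorem gn_st (g : Fld n M) {u : M → ℝ} (hu : Smooth u) {A : ℝ} (hA : 0 ≤ A) (b : ℝ) (x : M) :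
    gn g (fun y => smoothTransition (b + A * u y)) x ≤ P366H.DD * A * gn g u x := by
  have h : HasDerivAt (fun t => smoothTransition (b + A * t)) (P366H.s1 (b + A * u x) * A) (u x) :=
    (P366H.hd0 _).comp (u x) (by simpa using ((hasDerivAt_id (u x)).const_mul A).const_add b)
  rw [gn_comp h (hu.diff x), abs_of_nonneg (mul_nonneg (P366H.s1_nn _) hA)]
  exact mul_le_mul_of_nonneg_right (mul_le_mul_of_nonneg_right (P366H.s1_le _) hA)
    (gn_nonneg _ _ _)

theorem sm_st {u : M → ℝ} (hu : Smooth u) (A b : ℝ) :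
    Smooth fun y => smoothTransition (b + A * u y) :=
  P366H.sm_st.compM (CD.add cd_const (CD.mul cd_const hu))

end

theorem st_zone {t : ℝ} (h : 0 < smoothTransition t) (h' : smoothTransition t < 1) :
    0 < t ∧ t < 1 :=
  ⟨lt_of_not_ge fun a => h.ne' (smoothTransition.zero_of_nonpos a),
    lt_of_not_ge fun a => h'.ne (smoothTransition.one_of_one_le a)⟩

/-- the treatment of the tuples of a list inside the set `N` -/
def Trt (m : ℕ) (a ε a' ε' : ℝ) (k : ℕ) : Prop := ∀ (M ι : Type) [Mf0 (m + 2) M] [ProperSpace M]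
  (U : ι → Set M) (N : Set M) (L : List (Fin (m + 1) → ι)) (d : M → Vl (m + 2) ι),
  (∀ i, Bornology.IsBounded (U i)) → L.length = k →
  (∀ τ ∈ L, Function.Injective τ ∧ ∀ j, U (τ j) ⊆ N) → Gd U d → (∀ x ∈ N, Bd a ε d x) →
  ∃ d', Gd U d' ∧ Ref d d' ∧ (∀ x ∉ N, d' x = d x) ∧ (∀ x ∈ N, Bd a' ε' d' x) ∧ ∀ τ ∈ L, Kill τ d'

/-- one tuple -/
theorem trt_one {m : ℕ} (H : BLE (m + 1)) : ∃ B ≥ (1 : ℝ), ∀ a > (0 : ℝ), ∀ η > (0 : ℝ),
    ∃ ε₀ > (0 : ℝ), ∀ ε, 0 < ε → ε ≤ ε₀ → Trt m a ε (a - η) (B * ε) 1 := by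
  classical
  obtain ⟨C, C1, c, c0, H⟩ := H
  set A : ℝ := (m + 1) / c + 1 with hA
  have A1 : 1 ≤ A := le_add_of_nonneg_left (by positivity)
  have D1 := P366H.DD_ge
  have B1 : 1 ≤ P366H.DD * A := one_le_mul_of_one_le_of_one_le D1 A1
  refine ⟨P366H.DD * A * C * 8, by nlinarith, fun a ha η hη => ?_⟩
  obtain ⟨ε₀, e0, H⟩ := H a ha η hη
  refine ⟨ε₀ / 8, by positivity, fun ε ε0 hε M ι _ _ U N L d hb hL hτ gd bd => ?_⟩
  obtain ⟨τ, rfl⟩ := List.length_eq_one_iff.1 hL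
  obtain ⟨inj, sub⟩ := hτ τ (by simp)
  set G : Fin (m + 1) → M → ℝ := fun j x => -4 + 8 * ss d (τ j) x with hG
  have sG : ∀ j, Smooth (G j) := fun j => CD.add cd_const (CD.mul cd_const (gd.sm _))
  have le : ∀ j x, G j x ^ 2 ≤ nsq G x := fun j x =>
    Finset.single_le_sum (f := fun j => G j x ^ 2) (fun _ _ => sq_nonneg _) (Finset.mem_univ j)
  have zn : ∀ j x, nsq G x ≤ 4 → 0 < ss d (τ j) x ∧ ss d (τ j) x < 1 := fun j x h => by
    have := abs_le.1 (abs_le_of_sq_le_sq' (b := 2) (((le j x).trans h).trans_eq (by norm_num))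
      two_pos.le |> abs_le.2)
    simp only [hG] at this
    constructor <;> linarith [this.1, this.2]
  have mU : ∀ j x, nsq G x ≤ 4 → x ∈ U (τ j) := fun j x h => by
    by_contra k
    exact (zn j x h).1.ne' (gd.sp _ x k)
  have cn : Continuous (nsq G) := continuous_finsetSum _ fun j _ => (sG j).cont.pow 2
  have gG : ∀ (g : Fld (m + 2) M) j x, gn g (G j) x = 8 * gn g (ss d (τ j)) x := fun g j x => by
    rw [gn_of_pd (u' := ss d (τ j)) (s := 8) fun i => by
      simp only [hG]; rw [pd_const_add, pd_const_mul]]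
    norm_num
  obtain ⟨g', v', l', G', ok, sG', out, out', low, inn⟩ := H (8 * ε) (by positivity) (by linarith) M
    (gg d) (vv d) (ll d) G univ gd.ok sG isOpen_univ
    (isCompact_of_isClosed_isBounded (by simpa using isClosed_le cn continuous_const)
      ((hb (τ 0)).subset fun x hx => mU 0 x hx.2))
    fun x _ h => by
      obtain ⟨b1, b2, b3⟩ := bd x (sub 0 (mU 0 x h))
      refine ⟨b1, by linarith, fun j => ?_⟩
      have := b3 _ (zn j x h).1 (zn j x h).2
      rw [gG]; linarith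
  set s' : ι → M → ℝ := fun i => if h : ∃ j, τ j = i then
    fun x => smoothTransition (1 / 2 + A * G' h.choose x) else ss d i with hs'
  have s1 : ∀ j, s' (τ j) = fun x => smoothTransition (1 / 2 + A * G' j x) := fun j => by
    have h : ∃ j', τ j' = τ j := ⟨j, rfl⟩
    simp only [hs', dif_pos h, inj h.choose_spec]
  have s2 : ∀ i, (¬∃ j, τ j = i) → s' i = ss d i := fun i h => by simp only [hs', dif_neg h]
  have r0 : ∀ j x, ss d (τ j) x ≤ 0 → s' (τ j) x = 0 := fun j x h => by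
    have h1 : G j x ≤ -4 := by simp only [hG]; linarith
    rw [s1]
    refine smoothTransition.zero_of_nonpos ?_
    rw [out' x (Or.inr (le_trans (by nlinarith) (le j x)))]
    nlinarith
  have r1 : ∀ j x, 1 ≤ ss d (τ j) x → s' (τ j) x = 1 := fun j x h => by
    have h1 : 4 ≤ G j x := by simp only [hG]; linarith
    rw [s1]
    refine smoothTransition.one_of_one_le ?_
    rw [out' x (Or.inr (le_trans (by nlinarith) (le j x)))]
    nlinarith
  have sp : ∀ i, ∀ x ∉ U i, s' i x = 0 := fun i x hx => by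
    by_cases h : ∃ j, τ j = i
    · obtain ⟨j, rfl⟩ := h
      exact r0 j x (gd.sp _ x hx).le
    · rw [s2 i h]; exact gd.sp i x hx
  have rf : Ref d (mk g' v' l' s') := fun i x => by
    change (_ → s' i x ≤ 0) ∧ (_ → 1 ≤ s' i x)
    by_cases h : ∃ j, τ j = i
    · obtain ⟨j, rfl⟩ := h
      exact ⟨fun k => (r0 j x k).le, fun k => (r1 j x k).ge⟩
    · rw [s2 i h]; exact ⟨id, id⟩
  refine ⟨mk g' v' l' s', ⟨ok, fun i => ?_, sp⟩, rf, fun x hx => ?_, fun x hx => ?_, ?_⟩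
  · change Smooth (s' i)
    by_cases h : ∃ j, τ j = i
    · obtain ⟨j, rfl⟩ := h
      rw [s1]; exact sm_st (sG' j) _ _
    · rw [s2 i h]; exact gd.sm i
  · obtain ⟨o1, o2, o3⟩ := out x (Or.inr (lt_of_not_ge fun h => hx (sub 0 (mU 0 x h))))
    refine Prod.ext o1 (Prod.ext (funext o2) (Prod.ext o3 (funext fun i => ?_)))
    change s' i x = ss d i x
    by_cases h : ∃ j, τ j = i
    · obtain ⟨j, rfl⟩ := h
      have : x ∉ U (τ j) := fun k => hx (sub j k)
      rw [sp _ x this, gd.sp _ x this]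
    · rw [s2 i h]
  · obtain ⟨b1, b2, b3⟩ := bd x hx
    have l0 := ok.l0 x
    have q1 : C * (8 * ε) ≤ P366H.DD * A * C * 8 * ε := by
      nlinarith [mul_le_mul_of_nonneg_right B1 (by positivity : 0 ≤ C * (8 * ε))]
    have q2 : ε ≤ C * ε := le_mul_of_one_le_left ε0.le C1
    have key : (∀ j, 0 < ss d (τ j) x → ss d (τ j) x < 1 → l' x * gn g' (G' j) x ≤ C * (8 * ε)) →
        (∀ u, l' x * gn g' u x ≤ C * (ll d x * gn (gg d) u x)) →
        ∀ i, 0 < s' i x → s' i x < 1 → l' x * gn g' (s' i) x ≤ P366H.DD * A * C * 8 * ε := by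
      intro k1 k2 i p q
      by_cases h : ∃ j, τ j = i
      · obtain ⟨j, rfl⟩ := h
        have z := k1 j (lt_of_not_ge fun k => p.ne' (r0 j x k)) (lt_of_not_ge fun k => q.ne (r1 j x k))
        rw [s1]
        calc _ ≤ l' x * (P366H.DD * A * gn g' (G' j) x) :=
              mul_le_mul_of_nonneg_left (gn_st g' (sG' j) (by linarith) _ x) l0.le
          _ = P366H.DD * A * (l' x * gn g' (G' j) x) := by ring
          _ ≤ P366H.DD * A * (C * (8 * ε)) := mul_le_mul_of_nonneg_left z (by linarith)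
          _ = _ := by ring
      · rw [s2 i h] at p q ⊢
        have := mul_le_mul_of_nonneg_left (b3 i p q) (by linarith : 0 ≤ C)
        nlinarith [k2 (ss d i)]
    by_cases h : nsq G x ≤ 4
    · obtain ⟨i1, i2, i3, i4⟩ := inn x (mem_univ x) h
      exact ⟨i1, i2.trans q1, key (fun j _ _ => i3 j) i4⟩
    · have ev : ∀ᶠ y in 𝓝 x, 4 < nsq G y := cn.continuousAt.eventually (lt_mem_nhds (not_le.1 h))
      have eg : g' =ᶠ[𝓝 x] gg d := ev.mono fun y hy => (out y (Or.inr hy)).1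
      have el : l' =ᶠ[𝓝 x] ll d := ev.mono fun y hy => (out y (Or.inr hy)).2.2
      refine ⟨?_, ?_, key (fun j p q => ?_) fun u => ?_⟩
      · change a - η ≤ l' x ^ 2 * Rv g' v' x
        rw [Rv_of_ev eg fun i => ev.mono fun y hy => (out y (Or.inr hy)).2.1 i, el.self_of_nhds]
        linarith
      · change gn g' l' x ≤ _
        rw [gn_of_ev eg el]
        nlinarith
      · rw [gn_of_ev eg (ev.mono fun y hy => out' y (Or.inr (by linarith)) j), el.self_of_nhds, gG]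
        have := b3 _ p q
        nlinarith
      · rw [gn_of_eq eg.self_of_nhds, el.self_of_nhds]
        exact le_mul_of_one_le_left (mul_nonneg (gd.ok.l0 x).le (gn_nonneg _ _ _)) C1
  · intro τ' hτ' x
    obtain rfl : τ' = τ := by simpa using hτ'
    by_contra k
    push Not at k
    have z : ∀ j, G' j x ^ 2 ≤ 1 / (4 * A) := fun j => by
      have k1 : 0 < s' (τ' j) x := (k j).1
      have k2 : s' (τ' j) x < 1 := (k j).2
      rw [s1] at k1 k2
      obtain ⟨z1, z2⟩ := st_zone k1 k2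
      have z3 : (A * G' j x) ^ 2 ≤ 1 / 4 := by nlinarith
      rw [le_div_iff₀ (by positivity)]
      nlinarith [sq_nonneg (G' j x), mul_le_mul_of_nonneg_right A1 (by positivity : 0 ≤ A * G' j x ^ 2)]
    have z1 : nsq G' x ≤ (m + 1) * (1 / (4 * A)) := by
      simpa [nsq] using Finset.sum_le_card_nsmul Finset.univ (fun j => G' j x ^ 2) _ fun j _ => z j
    have z2 := (low x (mem_univ x)).trans z1
    rw [mul_one_div, le_div_iff₀ (by positivity), hA] at z2
    have : c * (4 * ((m + 1) / c + 1)) = 4 * (m + 1) + 4 * c := by field_simp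
    rw [this] at z2
    have : (0 : ℝ) ≤ m := by positivity
    linarith

/-- **FIN** -/
theorem trt {m : ℕ} (H : BLE (m + 1)) (k : ℕ) : ∀ a > (0 : ℝ), ∀ η > (0 : ℝ), η < a →
    ∃ B ≥ (1 : ℝ), ∃ ε₀ > (0 : ℝ), ∀ ε, 0 < ε → ε ≤ ε₀ → Trt m a ε (a - η) (B * ε) k := by
  obtain ⟨B₁, B1, H⟩ := trt_one H
  induction k with
  | zero =>
    refine fun a _ η hη _ => ⟨1, le_rfl, 1, one_pos, fun ε _ _ M ι _ _ U N L d _ hL _ gd bd => ?_⟩
    obtain rfl := List.length_eq_zero_iff.1 hL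
    exact ⟨d, gd, Ref.rfl' d, fun _ _ => rfl, fun x hx => (bd x hx).mono (by linarith) (by simp),
      by simp⟩
  | succ k ih =>
    intro a ha η hη hl
    obtain ⟨ε₁, e1, H⟩ := H a ha (η / 2) (by positivity)
    obtain ⟨B, B0, ε₂, e2, ih⟩ := ih (a - η / 2) (by linarith) (η / 2) (by positivity) (by linarith)
    refine ⟨B * B₁, one_le_mul_of_one_le_of_one_le B0 B1, min ε₁ (ε₂ / B₁), by positivity,
      fun ε ε0 hε M ι _ _ U N L d hb hL hτ gd bd => ?_⟩
    obtain ⟨τ, L, rfl⟩ := List.exists_cons_of_length_eq_add_one hL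
    obtain ⟨d₁, g1, r1, o1, b1, k1⟩ := H ε ε0 (hε.trans (min_le_left _ _)) M ι U N [τ] d hb rfl
      (fun τ' h => hτ τ' (by simp at h; simp [h])) gd bd
    obtain ⟨d₂, g2, r2, o2, b2, k2⟩ := ih (B₁ * ε) (by positivity)
      ((le_div_iff₀' (by positivity)).1 (hε.trans (min_le_right _ _))) M ι U N L d₁ hb
      (by simpa using hL) (fun τ' h => hτ τ' (by simp [h])) g1 b1
    refine ⟨d₂, g2, r1.trans r2, fun x hx => (o2 x hx).trans (o1 x hx),
      fun x hx => (b2 x hx).mono (by linarith) (by rw [mul_assoc]), fun τ' h => ?_⟩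
    rcases List.mem_cons.1 h with rfl | h
    · exact (k1 _ (by simp)).ref r2
    · exact k2 _ h

end Vale.Agent.P210U
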