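import Vale.Agent.P210F.Jet
import Vale.Agent.P210L.Lev

/-!
# P210U: strict inequalities along the neck (helper22)
-/

open Filter Topology Set
open scoped ContDiff
open Vale.Agent.P366M Vale.Agent.P366M.Gr Vale.Agent.P366M.Y.C Vale.Agent.P210G Vale.Agent.P210E
open Vale.Agent.P366M.An
open Vale.Agent.P366D (pull Sub)
open Vale.Agent.P210L (Vf)

noncomputable section

namespace Vale.Agent.P210U

variable {I : Type} {k : ℕ} {X : Type} [Mf0 (k + 1) X] {Z : Type} [Mf0 k Z] {ι : Z → X}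
  {B : Set X} {u : I → X → ℝ} {S c : ℝ} {z : Z} {T : Fld (k + 1) X}

theorem jetw {l : Filter I} (hι : Sub ι B) (hu : ∀ i, Smooth (u i)) (hr : Rg l u S ι z)
    (hT : Met T) : (∀ U, CC ∞ U → c < Rv (pull ι T) (pullC ι U) z →
      ∀ᶠ p in nk l u S (ι z), c < Rv (gb T 1 (u p.1)) U p.2) ∧
    ∀ a, Smooth a → gn (pull ι T) (fun z => a (ι z)) z < c →
      ∀ᶠ p in nk l u S (ι z), gn (gb T 1 (u p.1)) a p.2 < c :=
  have J := P210F.jet I l k X Z ι B u S z T hι hu hr hT
  ⟨fun U hU q => (J.1 U hU).eventually_const_lt q, fun a ha q => (J.2 a ha).eventually_lt_const q⟩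

/-- a property that holds along the neck near every point of the limit in a closed set `C` holds
on the slabs in `C` -/
theorem ev_neck_on {𝒰 : Ultrafilter I} {g : Fld (k + 1) X} {f h : X → ℝ} {c ε : I → ℝ}
    {O K C : Set X} {Λ : ℝ} (F : Vf 𝒰 g f h u c ε O K Λ) (hC : IsClosed C) {P : I → X → Prop}
    (H : ∀ x ∈ La 𝒰 u, x ∈ C → ∀ᶠ p in nk (𝒰 : Filter I) u S x, P p.1 p.2) :
    ∀ᶠ i in (𝒰 : Filter I), ∀ x ∈ C, |u i x| ≤ S → P i x := by
  filter_upwards [F.cf S, P366P.ev_cpt (l := (𝒰 : Filter I)) (P := fun i x => |u i x| ≤ S → P i x)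
    (F.cpt.inter_right hC) fun x hx => by
      by_cases a : x ∈ La 𝒰 u
      · exact eventually_inf_principal.1 (H x a hx.2)
      · obtain ⟨W, w1, w2, w3⟩ := exists_mem_nhds_isClosed_subset
          ((isClosed_La 𝒰 u).isOpen_compl.mem_nhds a)
        exact ((F.conc S w2.isOpen_compl fun y q w => w3 w q).prod_mk w1).mono
          fun p q r => (q.1 _ r q.2).elim] with i a b x hx q using b x ⟨a x q, hx⟩ q

theorem ev_neck {𝒰 : Ultrafilter I} {g : Fld (k + 1) X} {f h : X → ℝ} {c ε : I → ℝ}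
    {O K : Set X} {Λ : ℝ} (F : Vf 𝒰 g f h u c ε O K Λ) {P : I → X → Prop}
    (H : ∀ x ∈ La 𝒰 u, ∀ᶠ p in nk (𝒰 : Filter I) u S x, P p.1 p.2) :
    ∀ᶠ i in (𝒰 : Filter I), ∀ x, |u i x| ≤ S → P i x :=
  (ev_neck_on F isClosed_univ fun x a _ => H x a).mono fun _ q x => q x trivial

/-- what holds near the point holds along the neck -/
theorem nk_of_nhds {l : Filter I} {x : X} {P : X → Prop} (h : ∀ᶠ y in 𝓝 x, P y) :
    ∀ᶠ p in nk l u S x, P p.2 := (h.prod_inr l).filter_mono inf_le_left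

/-- what holds on the slabs holds along the neck -/
theorem nk_of_slab {l : Filter I} {x : X} {P : I → X → Prop}
    (h : ∀ᶠ i in l, ∀ y, |u i y| ≤ S → P i y) : ∀ᶠ p in nk l u S x, P p.1 p.2 :=
  eventually_inf_principal.2 ((h.prod_inl _).mono fun p q r => q p.2 r)

end Vale.Agent.P210U
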