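import Vale.Agent.P210U.Top

/-!
# P210U: the global output of stage 1, in two colours (helper22)
-/

open Filter Topology Set Metric Real
open scoped ContDiff
open Vale.Agent.P366M Vale.Agent.P210G

noncomputable section

namespace Vale.Agent.P210U

/-- the conclusion of `ST1` with the constants `η` and `D` -/
def St (n : ℕ) (η D : ℝ) : Prop := ∀ (M : Type) [Mf0 n M] [ProperSpace M]
  (g : Fld n M) (v : Fin n → M → ℝ), Met g → CC ∞ v → Lp g → ∀ A : Set M, IsCompact A →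
  ∀ (I : Type) [Fintype I] (p : I → M), (∀ x ∈ A, ∃ i, dist x (p i) ≤ 1) → ∀ ε > (0 : ℝ),
  ∃ (g' : Fld n M) (v' : Fin n → M → ℝ) (l : M → ℝ) (s : I → M → ℝ), Ok g' v' l ∧ Up g g' ∧
    (∀ x ∉ cthickening D A, g' x = g x ∧ (∀ i, v' i x = v i x) ∧ l x = 1) ∧
    (∀ i, Smooth (s i)) ∧ (∀ x ∈ A, ∃ i, 1 ≤ s i x) ∧ (∀ i x, 0 < s i x → dist x (p i) ≤ D) ∧
    ∀ x, l x ≤ 1 ∧ Rv g v x - η + (1 / l x ^ 2 - 1) ≤ Rv g' v' x ∧ gn g' l x ≤ ε ∧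
      ∀ i, 0 < s i x → s i x < 1 → l x * gn g' (s i) x ≤ ε

variable {n : ℕ} {M : Type} [Mf0 n M] [ProperSpace M] {η D : ℝ}

theorem sh_thick {X : Type} [MetricSpace X] {o x y : X} {k : ℕ}
    (h : k * (2 * D + 1) ≤ dist y o ∧ dist y o ≤ (k + 1) * (2 * D + 1)) (h' : dist x y ≤ D) :
    x ∈ Sh o D k := by
  have := dist_triangle x y o
  have := dist_triangle y x o
  rw [dist_comm y x] at this
  constructor <;> linarith [h.1, h.2]

/-- one colour -/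
theorem sphase (H : St n η D) (hη : 0 ≤ η) (hD : 0 ≤ D) (o : M) (b : ℕ) {A t : ℕ → Set M}
    (hA : ∀ k x, x ∈ A k ↔ k * (2 * D + 1) ≤ dist x o ∧ dist x o ≤ (k + 1) * (2 * D + 1))
    (cA : ∀ k, IsCompact (A k)) (ht : ∀ k, t k ⊆ A k ∧ (t k).Finite ∧ A k ⊆ ⋃ p ∈ t k, ball p 1)
    {g : Fld n M} {v : Fin n → M → ℝ} (hg : Met g) (hv : CC ∞ v) (lp : Lp g) {e : M → ℝ}
    (he : ∀ K, IsCompact K → ∃ c > (0 : ℝ), ∀ x ∈ K, c ≤ e x) :
    ∃ (g' : Fld n M) (v' : Fin n → M → ℝ) (l : M → ℝ) (s : ℕ → M → M → ℝ), Ok g' v' l ∧ Up g g' ∧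
      (∀ x, l x ≤ 1 ∧ Rv g v x - η + (1 / l x ^ 2 - 1) ≤ Rv g' v' x ∧ gn g' l x ≤ e x) ∧
      (∀ k, ∀ x ∈ A (2 * k + b), ∃ p ∈ t (2 * k + b), 1 ≤ s k p x) ∧
      ∀ k, ∀ p ∈ t (2 * k + b), Smooth (s k p) ∧ ∀ x, 0 < s k p x → dist x p ≤ D ∧
        (s k p x < 1 → l x * gn g' (s k p) x ≤ e x) := by
  classical
  choose c c0 hc using fun k => he _ (sh_cpt o D (2 * k + b))
  have := fun k => (ht k).2.1.fintype
  choose G V l s ok up out sm cov sp bd using fun k => H M g v hg hv lp _ (cA (2 * k + b))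
    (t (2 * k + b)) Subtype.val (fun x hx => by
      obtain ⟨p, h1, h2⟩ := mem_iUnion₂.1 ((ht _).2.2 hx)
      exact ⟨⟨p, h1⟩, (mem_ball.1 h2).le⟩) (c k) (c0 k)
  obtain ⟨f, hf⟩ := glue (fun k => sh_closed o D (2 * k + b)) (sh_lf2 hD o b) (sh_dj hD o b)
    (mk g v (fun _ => 1) fun (_ : Unit) _ => 0) (fun k => mk (G k) (V k) (l k) fun _ _ => 0)
    fun k x hx => by
      obtain ⟨o1, o2, o3⟩ := out k x fun h => by
        rw [(cA _).cthickening_eq_biUnion_closedBall hD] at h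
        obtain ⟨y, h1, h2⟩ := mem_iUnion₂.1 h
        exact hx (sh_thick ((hA _ y).1 h1) h2)
      exact Prod.ext o1 (Prod.ext (funext o2) (Prod.ext o3 rfl))
  have loc : ∀ x, (∃ k, x ∈ Sh o D (2 * k + b) ∧ gg f =ᶠ[𝓝 x] G k ∧ (∀ i, vv f i =ᶠ[𝓝 x] V k i) ∧
      ll f =ᶠ[𝓝 x] l k) ∨ gg f =ᶠ[𝓝 x] g ∧ (∀ i, vv f i =ᶠ[𝓝 x] v i) ∧
      ll f =ᶠ[𝓝 x] fun _ => 1 := fun x => by
    by_cases h : ∃ k, x ∈ Sh o D (2 * k + b)
    · obtain ⟨k, h⟩ := h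
      have q := (hf x).1 k h
      exact Or.inl ⟨k, h, q.mono fun y hy => by simp only [gg, hy, mk],
        fun i => q.mono fun y hy => by simp only [vv, hy, mk], q.mono fun y hy => by
          simp only [ll, hy, mk]⟩
    · have q := (hf x).2 fun k c => h ⟨k, c⟩
      exact Or.inr ⟨q.mono fun y hy => by simp only [gg, hy, mk],
        fun i => q.mono fun y hy => by simp only [vv, hy, mk], q.mono fun y hy => by
          simp only [ll, hy, mk]⟩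
  refine ⟨gg f, vv f, ll f, fun k p => if h : p ∈ t (2 * k + b) then s k ⟨p, h⟩ else fun _ => 0,
    ⟨met_loc fun x => ?_, cc_loc fun x => ?_, sm_loc fun x => ?_, fun x => ?_⟩, fun x ξ => ?_,
    fun x => ?_, fun k x hx => ?_, fun k p hp => ?_⟩
  · exact (loc x).elim (fun ⟨k, h⟩ => ⟨_, (ok k).met, h.2.1⟩) fun h => ⟨_, hg, h.1⟩
  · exact (loc x).elim (fun ⟨k, h⟩ => ⟨_, (ok k).cc, h.2.2.1⟩) fun h => ⟨_, hv, h.2.1⟩
  · exact (loc x).elim (fun ⟨k, h⟩ => ⟨_, (ok k).sml, h.2.2.2⟩) fun h => ⟨_, cd_const, h.2.2⟩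
  · rcases loc x with ⟨k, h⟩ | h
    · rw [h.2.2.2.self_of_nhds]; exact (ok k).l0 x
    · rw [h.2.2.self_of_nhds]; exact one_pos
  · rcases loc x with ⟨k, h⟩ | h
    · rw [h.2.1.self_of_nhds]; exact up k x ξ
    · rw [h.1.self_of_nhds]
  · rcases loc x with ⟨k, m, h1, h2, h3⟩ | ⟨h1, h2, h3⟩
    · rw [Rv_of_ev h1 h2, gn_of_ev h1 h3, h3.self_of_nhds]
      exact ⟨(bd k x).1, (bd k x).2.1, (bd k x).2.2.1.trans (hc k x m)⟩
    · obtain ⟨c', p1, p2⟩ := he {x} isCompact_singleton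
      rw [Rv_of_ev h1 h2, gn_of_ev h1 h3, h3.self_of_nhds, gn_zero fun i => pd_const 1 i x]
      exact ⟨le_rfl, by simpa using hη, p1.le.trans (p2 x rfl)⟩
  · obtain ⟨p, h⟩ := cov k x hx
    exact ⟨p, p.2, by simpa only [dif_pos p.2] using h⟩
  · simp only [dif_pos hp]
    refine ⟨sm k _, fun x h => ⟨sp k _ x h, fun h' => ?_⟩⟩
    have m : x ∈ Sh o D (2 * k + b) := sh_thick ((hA _ p).1 ((ht _).1 hp)) (sp k _ x h)
    have q := ((hf x).1 k m).self_of_nhds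
    have q1 : gg f x = G k x := by simp only [gg, q, mk]
    have q2 : ll f x = l k x := by simp only [ll, q, mk]
    rw [gn_of_eq q1, q2]
    exact ((bd k x).2.2.2 _ h h').trans (hc k x m)

omit [ProperSpace M] in
theorem gn_inv (g : Fld n M) {u : M → ℝ} (hu : Smooth u) {x : M} (h : 0 < u x) :
    gn g (fun y => (u y)⁻¹) x = gn g u x / u x ^ 2 := by
  rw [gn_comp (hasDerivAt_inv h.ne') (hu.diff x), abs_neg, abs_of_pos (by positivity)]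
  ring

/-- **OUT**: the global output of stage 1 -/
theorem out1_of_st (H : St n (1 / 4) D) (hD : 0 ≤ D) {g : Fld n M} (hg : Met g) (lp : Lp g)
    (hs : ∀ x, 1 ≤ scal g x) : ∃ (ι : Type) (_ : Countable ι) (U : ι → Set M),
      (∀ i, ∀ x ∈ U i, ∀ y ∈ U i, dist x y ≤ 2 * D) ∧
      (∀ K, IsCompact K → {i | (U i ∩ K).Nonempty}.Finite) ∧ Out1 M U (1 / 8) := by
  classical
  obtain ⟨o⟩ : Nonempty M := inferInstance
  set A : ℕ → Set M := fun k =>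
    {x | k * (2 * D + 1) ≤ dist x o ∧ dist x o ≤ (k + 1) * (2 * D + 1)} with hA
  have cA : ∀ k, IsCompact (A k) := fun k => (isCompact_closedBall o _).of_isClosed_subset
    ((isClosed_le continuous_const (continuous_id.dist continuous_const)).inter
      (isClosed_le (continuous_id.dist continuous_const) continuous_const)) fun _ h => h.2
  choose t ht using fun k => finite_cover_balls_of_compact (cA k) one_pos
  refine ⟨{q : ℕ × M // q.2 ∈ t q.1}, ?_, fun q => closedBall q.1.2 D, fun q x hx y hy => ?_,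
    fun K hK => ?_, fun e he => ?_⟩
  · have : {q : ℕ × M | q.2 ∈ t q.1}.Countable :=
      (countable_iUnion fun k => ((finite_singleton k).prod (ht k).2.1).countable).mono
        fun q h => mem_iUnion.2 ⟨q.1, mem_prod.2 ⟨rfl, h⟩⟩
    exact this.to_subtype
  · have := dist_triangle_right x y q.1.2
    linarith [mem_closedBall.1 hx, mem_closedBall.1 hy]
  · obtain ⟨L, h⟩ := lv_cpt (o := o) hD hK
    refine (((finite_Iic (L + 1)).biUnion fun k _ =>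
      (finite_singleton k).prod (ht k).2.1).preimage Subtype.val_injective.injOn).subset ?_
    rintro q ⟨x, h1, h2⟩
    exact mem_iUnion₂.2 ⟨q.1.1, (sh_lv hD (sh_thick ((ht _).1 q.2) h1)).trans
      (Nat.succ_le_succ (h x h2)), rfl, q.2⟩
  have he' : ∀ K, IsCompact K → ∃ c > (0 : ℝ), ∀ x ∈ K, c ≤ e x / 2 := fun K hK => by
    obtain ⟨c, c0, h⟩ := he K hK
    exact ⟨c / 2, by positivity, fun x hx => by linarith [h x hx]⟩
  have z : CC ∞ (fun (_ : Fin n) (_ : M) => (0 : ℝ)) := fun _ _ i => by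
    unfold repC
    simpa using (contDiff_const : ContDiff ℝ ∞ fun _ : P366.Stmt.E n => (0 : ℝ))
  obtain ⟨g₁, v₁, l₁, s₁, ok₁, u₁, b₁, c₁, p₁⟩ := sphase H (by norm_num) hD o 0 (fun _ _ => Iff.rfl)
    cA ht hg z lp he'
  obtain ⟨g₂, v₂, l₂, s₂, ok₂, u₂, b₂, c₂, p₂⟩ := sphase H (by norm_num) hD o 1 (fun _ _ => Iff.rfl)
    cA ht ok₁.met ok₁.cc (lp.up hg ok₁.met u₁) he'
  have w0 : ∀ x, 0 < (l₁ x)⁻¹ + (l₂ x)⁻¹ := fun x =>
    add_pos (inv_pos.2 (ok₁.l0 x)) (inv_pos.2 (ok₂.l0 x))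
  have i1 : Smooth fun x => (l₁ x)⁻¹ := CD.inv ok₁.sml fun x => (ok₁.l0 x).ne'
  have i2 : Smooth fun x => (l₂ x)⁻¹ := CD.inv ok₂.sml fun x => (ok₂.l0 x).ne'
  have sw : Smooth fun x => (l₁ x)⁻¹ + (l₂ x)⁻¹ := CD.add i1 i2
  have l1 : ∀ x, ((l₁ x)⁻¹ + (l₂ x)⁻¹)⁻¹ ≤ l₁ x := fun x =>
    inv_le_of_inv_le₀ (ok₁.l0 x) (le_add_of_nonneg_right (inv_pos.2 (ok₂.l0 x)).le)
  have l2 : ∀ x, ((l₁ x)⁻¹ + (l₂ x)⁻¹)⁻¹ ≤ l₂ x := fun x =>
    inv_le_of_inv_le₀ (ok₂.l0 x) (le_add_of_nonneg_left (inv_pos.2 (ok₁.l0 x)).le)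
  set s : {q : ℕ × M // q.2 ∈ t q.1} → M → ℝ := fun q =>
    if q.1.1 % 2 = 0 then s₁ (q.1.1 / 2) q.1.2 else s₂ (q.1.1 / 2) q.1.2 with hs'
  have P : ∀ q, Smooth (s q) ∧ ∀ x, 0 < s q x → dist x q.1.2 ≤ D ∧
      (s q x < 1 → ((l₁ x)⁻¹ + (l₂ x)⁻¹)⁻¹ * gn g₂ (s q) x ≤ e x / 2) := fun q => by
    by_cases h : q.1.1 % 2 = 0
    · simp only [hs', if_pos h]
      obtain ⟨a1, a2⟩ := p₁ (q.1.1 / 2) q.1.2 (by
        rw [show 2 * (q.1.1 / 2) + 0 = q.1.1 by omega]; exact q.2)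
      exact ⟨a1, fun x k => ⟨(a2 x k).1, fun k' => (mul_le_mul (l1 x)
        (u₂.gn_le ok₁.met ok₂.met _ x) (gn_nonneg _ _ _) (ok₁.l0 x).le).trans ((a2 x k).2 k')⟩⟩
    · simp only [hs', if_neg h]
      obtain ⟨a1, a2⟩ := p₂ (q.1.1 / 2) q.1.2 (by
        rw [show 2 * (q.1.1 / 2) + 1 = q.1.1 by omega]; exact q.2)
      exact ⟨a1, fun x k => ⟨(a2 x k).1, fun k' => (mul_le_mul_of_nonneg_right (l2 x)
        (gn_nonneg _ _ _)).trans ((a2 x k).2 k')⟩⟩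
  refine ⟨g₂, v₂, fun x => ((l₁ x)⁻¹ + (l₂ x)⁻¹)⁻¹, s,
    ⟨ok₂.met, ok₂.cc, CD.inv sw fun x => (w0 x).ne', fun x => inv_pos.2 (w0 x)⟩, fun q => (P q).1,
    fun x => ?_, fun q x h => ((P q).2 x h).1, fun x => ⟨?_, ?_, fun q h h' => ?_⟩⟩
  · have m : x ∈ A (lv o D x) := lv_bd hD o x
    obtain ⟨k, h | h⟩ := Nat.even_or_odd' (lv o D x)
    · obtain ⟨p, h1, h2⟩ := c₁ k x (by rwa [h] at m)
      refine ⟨⟨(2 * k + 0, p), h1⟩, ?_⟩
      simp only [hs']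
      rwa [if_pos (by omega), show (2 * k + 0) / 2 = k by omega]
    · obtain ⟨p, h1, h2⟩ := c₂ k x (by rwa [h] at m)
      refine ⟨⟨(2 * k + 1, p), h1⟩, ?_⟩
      simp only [hs']
      rwa [if_neg (by omega), show (2 * k + 1) / 2 = k by omega]
  · obtain ⟨a1, a2, -⟩ := b₁ x
    obtain ⟨a3, a4, -⟩ := b₂ x
    rw [Rv_zero] at a2
    have j1 : 1 ≤ (l₁ x)⁻¹ := (one_le_inv₀ (ok₁.l0 x)).2 a1
    have j2 : 1 ≤ (l₂ x)⁻¹ := (one_le_inv₀ (ok₂.l0 x)).2 a3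
    rw [one_div (_ ^ 2), ← inv_pow] at a2 a4
    rw [inv_pow, inv_mul_eq_div, le_div_iff₀ (pow_pos (w0 x) 2)]
    nlinarith [hs x, sq_nonneg ((l₁ x)⁻¹ - (l₂ x)⁻¹)]
  · have a1 := (u₂.gn_le ok₁.met ok₂.met l₁ x).trans (b₁ x).2.2
    have a2 := (b₂ x).2.2
    have a3 := ok₂.met.gn_add_le (u := fun x => (l₁ x)⁻¹ + (l₂ x)⁻¹) (pd_add (i1.diff x) (i2.diff x))
    rw [gn_inv _ ok₁.sml (ok₁.l0 x), gn_inv _ ok₂.sml (ok₂.l0 x)] at a3
    rw [gn_inv _ sw (w0 x), div_le_iff₀ (pow_pos (w0 x) 2)]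
    have j1 := inv_pos.2 (ok₁.l0 x)
    have j2 := inv_pos.2 (ok₂.l0 x)
    rw [div_eq_mul_inv, div_eq_mul_inv, ← inv_pow, ← inv_pow] at a3
    have e0 : 0 ≤ e x / 2 := (gn_nonneg _ _ _).trans a2
    have k1 := mul_le_mul a1 (pow_le_pow_left₀ j1.le (le_add_of_nonneg_right j2.le) 2)
      (by positivity) e0
    have k2 := mul_le_mul a2 (pow_le_pow_left₀ j2.le (le_add_of_nonneg_left j1.le) 2)
      (by positivity) e0
    linarith
  · have := ((P q).2 x h).2 h'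
    have e0 : 0 ≤ e x / 2 := (gn_nonneg _ _ _).trans (b₂ x).2.2
    linarith

/-- **the top level** -/
theorem top {m : ℕ} (h₁ : ST1 (m + 2)) (h₂ : BLE (m + 1)) : ∃ C : ℝ, ∀ (M : Type) [Mf0 (m + 2) M]
    [ProperSpace M] (g : Fld (m + 2) M), Met g → Lp g → (∀ x, 1 ≤ scal g x) →
    P210.R2.H53.UrysohnWidthLE M m C := by
  obtain ⟨D, D0, H⟩ := h₁ (1 / 4) (by norm_num)
  refine ⟨2 * D, fun M _ _ g hg lp hs => ?_⟩
  obtain ⟨ι, _, U, a, b, c⟩ := out1_of_st H D0.le hg lp hs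
  exact uw_of_out1 h₂ (by positivity) (by norm_num) a b c

end Vale.Agent.P210U
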