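import Vale.Agent.P210U.Fin

/-!
# P210U: all tuples, in two colours (helper22)
-/

open Filter Topology Set Metric Real
open scoped ContDiff
open Vale.Agent.P366M Vale.Agent.P210G

noncomputable section

namespace Vale.Agent.P210U

theorem exists_env (f : ℕ → ℝ) (h : ∀ k, 0 < f k) :
    ∃ F : ℕ → ℝ, (∀ k, 0 < F k) ∧ Antitone F ∧ ∀ k L, k ≤ L → F L ≤ f k := by
  refine ⟨fun L => (Finset.range (L + 1)).inf' Finset.nonempty_range_add_one f, fun k => ?_, fun k L hk => ?_,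
    fun k L hk => Finset.inf'_le _ (by simp; omega)⟩
  · exact (Finset.lt_inf'_iff _).2 fun j _ => h j
  · exact Finset.inf'_mono _ (Finset.range_mono (by omega)) _

section Shell

variable {X : Type} [MetricSpace X]

/-- the shells -/
def Sh (o : X) (D : ℝ) (k : ℕ) : Set X :=
  {x | k * (2 * D + 1) - D ≤ dist x o ∧ dist x o ≤ (k + 1) * (2 * D + 1) + D}

/-- the level of a point -/
def lv (o : X) (D : ℝ) (x : X) : ℕ := ⌊dist x o / (2 * D + 1)⌋₊

variable {o x y : X} {D : ℝ} {k k' : ℕ}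

theorem sh_closed (o : X) (D : ℝ) (k : ℕ) : IsClosed (Sh o D k) :=
  (isClosed_le continuous_const (continuous_id.dist continuous_const)).inter
    (isClosed_le (continuous_id.dist continuous_const) continuous_const)

theorem sh_cpt [ProperSpace X] (o : X) (D : ℝ) (k : ℕ) : IsCompact (Sh o D k) :=
  (isCompact_closedBall o _).of_isClosed_subset (sh_closed o D k) fun _ h => h.2

theorem sh_near (hD : 0 ≤ D) (h : x ∈ Sh o D k) (h' : x ∈ Sh o D k') : k ≤ k' + 1 := by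
  by_contra c
  have : (k' : ℝ) + 2 ≤ k := by exact_mod_cast (by omega : k' + 2 ≤ k)
  nlinarith [h.1, h'.2]

theorem lv_bd (hD : 0 ≤ D) (o x : X) : lv o D x * (2 * D + 1) ≤ dist x o ∧
    dist x o ≤ (lv o D x + 1) * (2 * D + 1) := by
  have p : 0 < 2 * D + 1 := by linarith
  exact ⟨(le_div_iff₀ p).1 (Nat.floor_le (by positivity)),
    ((div_lt_iff₀ p).1 (Nat.lt_floor_add_one _)).le⟩

theorem mem_sh (hD : 0 ≤ D) (h : dist y x ≤ D) : y ∈ Sh o D (lv o D x) := by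
  obtain ⟨a, b⟩ := lv_bd hD o x
  have := dist_triangle y x o
  have := dist_triangle x y o
  rw [dist_comm x y] at this
  constructor <;> linarith

theorem sh_lv (hD : 0 ≤ D) (h : x ∈ Sh o D k) : k ≤ lv o D x + 1 :=
  sh_near hD h (mem_sh hD (by simpa using hD))

theorem lv_cpt (hD : 0 ≤ D) {K : Set X} (hK : IsCompact K) : ∃ L, ∀ x ∈ K, lv o D x ≤ L := by
  obtain ⟨r, hr⟩ := hK.isBounded.subset_closedBall o
  exact ⟨⌊r / (2 * D + 1)⌋₊, fun x hx => Nat.floor_mono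
    (div_le_div_of_nonneg_right (hr hx) (by linarith))⟩

theorem sh_lf (hD : 0 ≤ D) (o : X) : LocallyFinite (Sh o D) := fun x => by
  refine ⟨ball x 1, ball_mem_nhds x one_pos, (finite_Iic ⌈dist x o + 1 + D⌉₊).subset ?_⟩
  rintro k ⟨y, h1, h2⟩
  have := dist_triangle y x o
  have h3 : (k : ℝ) ≤ dist x o + 1 + D := by
    have := mem_ball.1 h2
    nlinarith [h1.1, (Nat.cast_nonneg k : (0 : ℝ) ≤ k)]
  exact_mod_cast h3.trans (Nat.le_ceil _)

theorem sh_lf2 (hD : 0 ≤ D) (o : X) (b : ℕ) : LocallyFinite fun k => Sh o D (2 * k + b) :=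
  (sh_lf hD o).comp_injective (g := fun k => 2 * k + b) fun _ _ h => by simpa using h

theorem sh_dj (hD : 0 ≤ D) (o : X) (b : ℕ) (k k' : ℕ) (x : X) (h : x ∈ Sh o D (2 * k + b))
    (h' : x ∈ Sh o D (2 * k' + b)) : k = k' := by
  have := sh_near hD h h'
  have := sh_near hD h' h
  omega

end Shell

/-- one colour -/
theorem phase {m : ℕ} {M ι : Type} [Mf0 (m + 2) M] [ProperSpace M] {U : ι → Set M}
    (hb : ∀ i, Bornology.IsBounded (U i)) {N : ℕ → Set M} (hc : ∀ k, IsClosed (N k))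
    (lf : LocallyFinite N) (dj : ∀ k k' x, x ∈ N k → x ∈ N k' → k = k')
    (L : ℕ → List (Fin (m + 1) → ι))
    (hL : ∀ k, ∀ τ ∈ L k, Function.Injective τ ∧ ∀ j, U (τ j) ⊆ N k) {a a' : ℝ} {e e' : ℕ → ℝ}
    (T : ∀ k, Trt m a (e k) a' (e' k) (L k).length) {d : M → Vl (m + 2) ι} (gd : Gd U d)
    (bd : ∀ k, ∀ x ∈ N k, Bd a (e k) d x) : ∃ d', Gd U d' ∧ Ref d d' ∧
      (∀ k, ∀ x ∈ N k, Bd a' (e' k) d' x) ∧ (∀ x, (∀ k, x ∉ N k) → d' =ᶠ[𝓝 x] d) ∧
      ∀ k, ∀ τ ∈ L k, Kill τ d' := by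
  choose D g r o b kl using fun k => T k M ι U (N k) (L k) d hb rfl (hL k) gd (bd k)
  obtain ⟨f, hf⟩ := glue hc lf dj d D o
  have gf : Gd U f := gd_loc fun x => by
    by_cases h : ∃ k, x ∈ N k
    · obtain ⟨k, h⟩ := h
      exact ⟨_, g k, (hf x).1 k h⟩
    · exact ⟨_, gd, (hf x).2 fun k hk => h ⟨k, hk⟩⟩
  refine ⟨f, gf, fun i x => ?_, fun k x hx => (b k x hx).congr ((hf x).1 k hx), fun x => (hf x).2,
    fun k τ hτ x => ?_⟩
  · by_cases h : ∃ k, x ∈ N k
    · obtain ⟨k, h⟩ := h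
      have := r k i x
      simpa only [ss, ((hf x).1 k h).self_of_nhds] using this
    · simp only [ss, ((hf x).2 fun k hk => h ⟨k, hk⟩).self_of_nhds, imp_self, and_self]
  · by_cases h : x ∈ N k
    · have := kl k τ hτ x
      simpa only [ss, ((hf x).1 k h).self_of_nhds] using this
    · exact ⟨0, Or.inl (gf.sp _ x fun c => h ((hL k τ hτ).2 0 c)).le⟩

/-- **TOP**: the output of stage 1 and the radial lemma give the bound of the width -/
theorem uw_of_out1 {m : ℕ} (H : BLE (m + 1)) {M ι : Type} [Mf0 (m + 2) M] [ProperSpace M]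
    [Countable ι] {U : ι → Set M} {D a : ℝ} (hD : 0 ≤ D) (ha : 0 < a)
    (hd : ∀ i, ∀ x ∈ U i, ∀ y ∈ U i, dist x y ≤ D)
    (lf : ∀ K, IsCompact K → {i | (U i ∩ K).Nonempty}.Finite) (O : Out1 M U a) :
    P210.R2.H53.UrysohnWidthLE M m D := by
  classical
  obtain ⟨o⟩ : Nonempty M := inferInstance
  have hb : ∀ i, Bornology.IsBounded (U i) := fun i => isBounded_iff.2 ⟨D, fun x p y q => hd i x p y q⟩
  have fin : ∀ k, {τ : Fin (m + 1) → ι | Function.Injective τ ∧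
      ∀ j, U (τ j) ⊆ Sh o D k ∧ (U (τ j)).Nonempty}.Finite := fun k =>
    (Finite.pi' fun _ : Fin (m + 1) => lf _ (sh_cpt o D k)).subset fun τ h j =>
      (h.2 j).2.mono fun x hx => ⟨hx, (h.2 j).1 hx⟩
  set L : ℕ → List (Fin (m + 1) → ι) := fun k => (fin k).toFinset.toList with hL
  have mL : ∀ k τ, τ ∈ L k ↔ Function.Injective τ ∧
      ∀ j, U (τ j) ⊆ Sh o D k ∧ (U (τ j)).Nonempty := fun k τ => by simp [hL]
  choose B B1 t t0 T using fun k => trt H (L k).length a ha (a / 4) (by positivity) (by linarith)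
  choose B' _ θ θ0 T' using fun k => trt H (L k).length (a - a / 4) (by linarith) (a / 4)
    (by positivity) (by linarith)
  obtain ⟨Θ, Θ0, -, hΘ⟩ := exists_env θ θ0
  have B0 : ∀ k, 0 < B k := fun k => one_pos.trans_le (B1 k)
  set e : ℕ → ℝ := fun k => min (t k) (Θ (k + 1) / B k) with he
  have e0 : ∀ k, 0 < e k := fun k => lt_min (t0 k) (div_pos (Θ0 _) (B0 k))
  have e1 : ∀ k k', k' ≤ k + 1 → B k * e k ≤ θ k' := fun k k' h =>
    ((le_div_iff₀' (B0 k)).1 (min_le_right _ _)).trans (hΘ _ _ h)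
  obtain ⟨F, F0, Fa, hF⟩ := exists_env e e0
  have D1 := P366H.DD_ge
  obtain ⟨g, v, l, s, ok, sm, cov, sp, bd⟩ := O (fun x => F (lv o D x + 1) / P366H.DD)
    fun K hK => by
      obtain ⟨L₀, h⟩ := lv_cpt (o := o) hD hK
      exact ⟨F (L₀ + 1) / P366H.DD, div_pos (F0 _) (by linarith), fun x hx =>
        div_le_div_of_nonneg_right (Fa (Nat.succ_le_succ (h x hx))) (by linarith)⟩
  set d : M → Vl (m + 2) ι := mk g v l fun i x => smoothTransition (0 + 1 * s i x) with hd'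
  have gd : Gd U d := ⟨ok, fun i => sm_st (sm i) 1 0, fun i x hx =>
    smoothTransition.zero_of_nonpos (by simpa using le_of_not_gt fun c => hx (sp i x c))⟩
  have b0 : ∀ k, ∀ x ∈ Sh o D k, Bd a (e k) d x := fun k x hx => by
    obtain ⟨b1, b2, b3⟩ := bd x
    have q := hF _ _ (sh_lv hD hx)
    refine ⟨b1, (b2.trans (div_le_self (F0 _).le D1)).trans q, fun i p1 p2 => ?_⟩
    obtain ⟨z1, z2⟩ := st_zone p1 p2
    have z := (le_div_iff₀' (by linarith)).1 (b3 i (by simpa using z1) (by simpa using z2))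
    have w := mul_le_mul_of_nonneg_left (gn_st g (sm i) zero_le_one 0 x) (ok.l0 x).le
    refine w.trans (le_trans (le_of_eq ?_) (z.trans q))
    ring
  obtain ⟨d₁, g1, r1, b1, o1, k1⟩ := phase hb (fun k => sh_closed o D (2 * k + 0)) (sh_lf2 hD o 0)
    (sh_dj hD o 0) (fun k => L (2 * k + 0))
    (fun k τ h => ⟨((mL _ τ).1 h).1, fun j => (((mL _ τ).1 h).2 j).1⟩)
    (fun k => T (2 * k + 0) _ (e0 _) (min_le_left _ _)) gd fun k => b0 _
  obtain ⟨d₂, g2, r2, -, -, k2⟩ := phase hb (fun k => sh_closed o D (2 * k + 1)) (sh_lf2 hD o 1)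
    (sh_dj hD o 1) (fun k => L (2 * k + 1))
    (fun k τ h => ⟨((mL _ τ).1 h).1, fun j => (((mL _ τ).1 h).2 j).1⟩)
    (fun k => T' (2 * k + 1) _ (θ0 _) le_rfl) g1 fun k x hx => by
      by_cases h : ∃ k', x ∈ Sh o D (2 * k' + 0)
      · obtain ⟨k', h⟩ := h
        exact (b1 k' x h).mono le_rfl (e1 _ _ (sh_near hD hx h))
      · exact ((b0 _ x hx).congr (o1 x fun k' c => h ⟨k', c⟩)).mono (by linarith)
          ((le_mul_of_one_le_left (e0 _).le (B1 _)).trans (e1 _ _ (Nat.le_succ _)))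
  have su : ∀ i x, 0 < ss d₂ i x → x ∈ U i := fun i x h => by
    by_contra c
    exact h.ne' (g2.sp i x c)
  refine width_of_bands (ss d₂) (fun i => (g2.sm i).cont) (fun x => ?_)
    (fun i x y p q => hd i x (su i x p) y (su i y q)) fun x S hS => ?_
  · obtain ⟨i, h⟩ := cov x
    exact ⟨i, ((r1.trans r2) i x).2 (smoothTransition.one_of_one_le (by simpa using h)).ge⟩
  · by_contra c
    obtain ⟨τ, hτ⟩ := Function.Embedding.exists_of_card_le_finset (α := Fin (m + 1)) (s := S)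
      (by simpa using c)
    have z : ∀ j, 0 < ss d₂ (τ j) x ∧ ss d₂ (τ j) x < 1 := fun j => hS _ (hτ ⟨j, rfl⟩)
    have mτ : (τ : Fin (m + 1) → ι) ∈ L (lv o D x) := (mL _ _).2 ⟨τ.injective, fun j =>
      ⟨fun y hy => mem_sh hD (hd _ y hy x (su _ x (z j).1)), x, su _ x (z j).1⟩⟩
    have kl : Kill τ d₂ := by
      obtain ⟨k, h | h⟩ := Nat.even_or_odd' (lv o D x)
      · exact (k1 k τ (by rwa [h] at mτ)).ref r2
      · exact k2 k τ (by rwa [h] at mτ)
    obtain ⟨j, h | h⟩ := kl x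
    · exact (z j).1.not_ge h
    · exact (z j).2.not_ge h

end Vale.Agent.P210U
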